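import Vale.Agent.P025Z.Gal
import Vale.Agent.P025.H641.Geo
import Vale.Agent.P025.H641.Comp

/-! # Covers of the curve and unramified extensions of the function field -/

set_option backward.isDefEq.respectTransparency false
set_option linter.style.haveILetI false

open CategoryTheory CategoryTheory.Limits AlgebraicGeometry IsLocalRing P025H641
  IsDedekindDomain IsDedekindDomain.HeightOneSpectrum
open scoped nonZeroDivisors

namespace Vale.Agent.P025Z

universe u

/-- values of the elements of an unramified algebra -/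
theorem val_of_unram {k R B L : Type u} [Field k] [CommRing R] [IsDomain R]
    [IsDiscreteValuationRing R] [CommRing B] [Algebra R B] [Module.Finite R B]
    [Algebra.FormallyUnramified R B] [Field L] [Algebra k L] {V : ValuationSubring L}
    (hV : IsPlace k L V) (c : B →+* L) (hc : ∀ z, c z ∈ V)
    (hm : ∀ r : R, V.valuation (c (algebraMap R B r)) < 1 ↔ r ∈ maximalIdeal R) (z : B)
    (hz : c z ≠ 0) : ∃ r : R, V.valuation (c (algebraMap R B r)) = V.valuation (c z) := by
  let c' : B →+* V := c.codRestrict V.toSubring hc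
  let q : Ideal B := (maximalIdeal V).comap c'
  have hq : ∀ z, z ∈ q ↔ V.valuation (c z) < 1 := fun z => V.valuation_lt_one_iff (c' z)
  have hqp : q.IsPrime := Ideal.comap_isPrime _ _
  have hle : ∀ z, V.valuation (c z) ≤ 1 := fun z => (V.valuation_le_one_iff _).2 (hc z)
  have hlo : q.LiesOver (maximalIdeal R) := ⟨Ideal.ext fun r => ((hq _).trans (hm r)).symm⟩
  obtain ⟨π, hπ⟩ := IsDiscreteValuationRing.exists_irreducible R
  let := Localization.AtPrime.algebraOfLiesOver (maximalIdeal R) q
  have h1 := ((Algebra.isUnramifiedAt_iff_map_eq R (maximalIdeal R) q).1 inferInstance).2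
  rw [hπ.maximalIdeal_eq, Ideal.map_span, Set.image_singleton] at h1
  have hπ1 : V.valuation (c (algebraMap R B π)) < 1 :=
    (hm π).2 (hπ.maximalIdeal_eq ▸ Ideal.mem_span_singleton_self π)
  have step : ∀ z ∈ q, ∃ z', V.valuation (c z) =
      V.valuation (c (algebraMap R B π)) * V.valuation (c z') := by
    intro z hz
    have h2 : algebraMap B (Localization.AtPrime q) z ∈ maximalIdeal (Localization.AtPrime q) :=
      (IsLocalization.AtPrime.to_map_mem_maximal_iff _ q z).2 hz
    rw [← h1, Ideal.mem_span_singleton'] at h2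
    obtain ⟨a, ha⟩ := h2
    obtain ⟨⟨z', s⟩, hs⟩ := IsLocalization.surj q.primeCompl a
    have h3 : algebraMap B (Localization.AtPrime q) (z * s) =
        algebraMap B (Localization.AtPrime q) (algebraMap R B π * z') := by
      rw [map_mul, map_mul, ← ha, ← hs, ← IsScalarTower.algebraMap_apply]
      ring
    obtain ⟨t, ht⟩ := (IsLocalization.eq_iff_exists q.primeCompl _).1 h3
    have h4 : ∀ s : q.primeCompl, V.valuation (c s) = 1 := fun s =>
      le_antisymm (hle _) (not_lt.1 fun h => s.2 ((hq _).2 h))
    have h5 := congrArg (fun z => V.valuation (c z)) ht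
    simp only [map_mul, h4, one_mul, mul_one] at h5
    exact ⟨z', h5⟩
  obtain ⟨N, hN⟩ := hV.archimedean (c z) _ hz hπ1
  clear hz
  induction N generalizing z with
  | zero => exact absurd hN (by rw [pow_zero]; exact not_lt.2 (hle z))
  | succ N ih =>
    by_cases h : z ∈ q
    · obtain ⟨z', hz'⟩ := step z h
      rw [hz', pow_succ'] at hN
      obtain ⟨r, hr⟩ := ih z' (lt_of_mul_lt_mul_left' hN)
      exact ⟨π * r, by rw [map_mul, map_mul, map_mul, hr, hz']⟩
    · refine ⟨1, ?_⟩
      rw [map_one, map_one, map_one]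
      exact (le_antisymm (hle _) (not_lt.1 fun h' => h ((hq _).2 h'))).symm

/-- the integral closure in an unramified extension is etale -/
theorem etale_closure (k A K L B : Type u) [Field k] [CharZero k] [CommRing A]
    [IsDedekindDomain A] [Field K] [Field L] [CommRing B] [Algebra k A] [Algebra A K]
    [IsFractionRing A K] [Algebra K L] [FiniteDimensional K L] [Algebra A L] [IsScalarTower A K L]
    [Algebra k L] [IsScalarTower k A L] [Algebra A B] [Algebra B L] [IsScalarTower A B L]
    [IsIntegralClosure B A L] (hL : IsUnramified k K L) :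
    Module.Finite A B ∧ Algebra.Etale A B := by
  have hA : CharZero A := charZero_of_injective_algebraMap (algebraMap k A).injective
  have hK : CharZero K := IsFractionRing.charZero_of_isFractionRing A
  have hBd : IsDomain B := (IsIntegralClosure.algebraMap_injective B A L).isDomain _
  have hfin : Module.Finite A B := IsIntegralClosure.finite A K L B
  have hD : IsDedekindDomain B := IsIntegralClosure.isDedekindDomain A K L B
  have hF : IsFractionRing B L := IsIntegralClosure.isFractionRing_of_finite_extension A K L B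
  have htf : Module.IsTorsionFree A L := .trans_faithfulSMul A K L
  have htf' : Module.IsTorsionFree A B := IsIntegralClosure.isTorsionFree A L
  have hfp : Algebra.FinitePresentation A B :=
    Algebra.FinitePresentation.of_finiteType.1 inferInstance
  have hinj := IsIntegralClosure.algebraMap_injective B A L
  have hu : Algebra.FormallyUnramified A B := by
    rw [Algebra.formallyUnramified_iff_forall]
    rintro ⟨q, hq⟩
    let p := q.under A
    let := Localization.AtPrime.algebraOfLiesOver p q
    refine (Algebra.isUnramifiedAt_iff_map_eq A p q).2 ⟨?_, le_antisymm ?_ ?_⟩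
    · have : CharZero p.ResidueField :=
        charZero_of_injective_ringHom ((algebraMap A p.ResidueField).comp (algebraMap k A)).injective
      infer_instance
    · rw [Ideal.map_le_iff_le_comap]
      intro a ha
      rw [Ideal.mem_comap, IsScalarTower.algebraMap_apply A B]
      exact (IsLocalization.AtPrime.to_map_mem_maximal_iff _ q _).2 ha
    rw [← Localization.AtPrime.map_eq_maximalIdeal, Ideal.map_le_iff_le_comap]
    intro x hx
    rw [Ideal.mem_comap]
    by_cases hx0 : x = 0
    · rw [hx0, map_zero]; exact zero_mem _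
    have hq0 : q ≠ ⊥ := fun h => hx0 (by rwa [h] at hx)
    have hp0 : p ≠ ⊥ := fun h => hq0 (Ideal.eq_bot_of_comap_eq_bot h)
    let V := valuationSubringAtPrime L ⟨q, hq, hq0⟩
    have hB : ∀ b : B, algebraMap B L b ∈ V := fun b =>
      ⟨b, 1, one_mem _, by rw [map_one, inv_one, mul_one]⟩
    have hle : ∀ b : B, V.valuation (algebraMap B L b) ≤ 1 := fun b =>
      (V.valuation_le_one_iff _).2 (hB b)
    have hne : ∀ {b : B}, b ∉ q → algebraMap B L b ≠ 0 := fun {b} hb h =>
      hb (by rw [(map_eq_zero_iff _ hinj).1 h]; exact zero_mem _)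
    have hone : ∀ {b : B}, b ∉ q → V.valuation (algebraMap B L b) = 1 := fun {b} hb => by
      have h1 : (algebraMap B L b)⁻¹ ∈ V := ⟨1, b, hb, by rw [map_one, one_mul]⟩
      rw [← V.valuation_le_one_iff, map_inv₀,
        inv_le_one₀ (zero_lt_iff.2 ((map_ne_zero _).2 (hne hb)))] at h1
      exact le_antisymm (hle b) h1
    have hx' : algebraMap B L x ≠ 0 := (map_ne_zero_iff _ hinj).2 hx0
    have hlt : ∀ {b : B}, b ∈ q → V.valuation (algebraMap B L b) < 1 := fun {b} hb => by
      by_contra h
      have h1 : V.valuation (algebraMap B L b) = 1 := le_antisymm (hle b) (not_lt.1 h)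
      have h0 : algebraMap B L b ≠ 0 := fun h0 => by
        rw [h0, map_zero] at h1; exact zero_ne_one h1
      obtain ⟨a, s, hs, e⟩ : (algebraMap B L b)⁻¹ ∈ V := by
        rw [← V.valuation_le_one_iff, map_inv₀, h1, inv_one]
      apply hs
      have h2 : s = a * b := hinj (by
        rw [map_mul, ← div_eq_mul_inv, eq_div_iff (hne hs)] at *
        rw [← e]; field_simp)
      rw [h2]
      exact q.mul_mem_left a hb
    have hV : IsPlace k L V := ⟨fun c => by
      rw [IsScalarTower.algebraMap_apply k A L, IsScalarTower.algebraMap_apply A B L]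
      exact hB _, P025H16.dvr_atPrime B L _⟩
    obtain ⟨y, hy⟩ := hL V hV (algebraMap B L x)
    have hAL : ∀ a : A, algebraMap K L (algebraMap A K a) = algebraMap B L (algebraMap A B a) :=
      fun a => by rw [← IsScalarTower.algebraMap_apply, ← IsScalarTower.algebraMap_apply]
    obtain ⟨a, s, h | h⟩ := exists_primeCompl_mul_eq_or_mul_eq (K := K) ⟨p, inferInstance, hp0⟩ y
    · have h1 := congrArg (fun z => V.valuation (algebraMap K L z)) h
      simp only [map_mul, hAL, hy] at h1
      rw [hone (b := algebraMap A B s) s.2, mul_one] at h1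
      have ha : a ∈ p := by
        by_contra h2
        rw [hone (b := algebraMap A B a) h2] at h1
        exact (hlt hx).ne h1
      have h0 : algebraMap B L (algebraMap A B a) ≠ 0 := fun h0 => by
        rw [h0, map_zero, map_eq_zero] at h1; exact hx' h1
      obtain ⟨b, t, ht, e⟩ : algebraMap B L x / algebraMap B L (algebraMap A B a) ∈ V := by
        rw [← V.valuation_le_one_iff, map_div₀, h1, div_self ((map_ne_zero _).2 h0)]
      have h2 : x * t = algebraMap A B a * b := hinj (by
        rw [← div_eq_mul_inv, div_eq_div_iff h0 (hne ht)] at e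
        rw [map_mul, map_mul, e, mul_comm])
      have h3 := IsLocalization.map_units (Localization.AtPrime q) (⟨t, ht⟩ : q.primeCompl)
      rw [← Ideal.mul_unit_mem_iff_mem _ h3, ← map_mul, h2, map_mul,
        ← IsScalarTower.algebraMap_apply]
      exact Ideal.mul_mem_right _ _ (Ideal.mem_map_of_mem _ ha)
    · have h1 := congrArg (fun z => V.valuation (algebraMap K L z)) h
      simp only [map_mul, hAL, hy] at h1
      rw [hone (b := algebraMap A B s) s.2] at h1
      exact absurd h1 (mul_lt_one_of_lt_of_le (hlt hx) (hle _)).ne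
  exact ⟨hfin, Algebra.Etale.of_formallyUnramified_of_flat⟩

variable {k : Type u} [Field k] [CharZero k] {X : Scheme.{u}} (f : X ⟶ Spec (.of k))
  [IsIntegral X] [SmoothOfRelativeDimension 1 f]

omit [SmoothOfRelativeDimension 1 f] in
theorem charZero_KX : CharZero (KX f) :=
  charZero_of_injective_algebraMap (algebraMap k (KX f)).injective

omit [SmoothOfRelativeDimension 1 f] in
theorem fld_unr [IsProper f] {η : Spec (.of (AlgebraicClosure (KX f))) ⟶ X}
    (h : sp (algebraMap (KX f) (AlgebraicClosure (KX f))) ≫ eta0 f = η) {C : FEt X}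
    (y : Fib η C) : IsFinUnr k (fld h y) := by
  have := charZero_KX f
  have hfin := (fld_spec h y).1
  refine ⟨hfin, fun V hV x => ?_⟩
  by_cases hx0 : x = 0
  · exact ⟨0, by rw [hx0, map_zero]⟩
  let V0 := V.comap (algebraMap (KX f) (fld h y))
  have hV0 : IsPlace k (KX f) V0 := hV.comap
  have := hV0.discrete
  obtain ⟨w, hw⟩ := exists_centre f V0 hV0.const_mem
  obtain ⟨B, _, _, hB, het, m, hm⟩ := exists_chart_alg w C
  obtain ⟨b, hb, hy⟩ := chart_exists hm
    ((algebraMap (KX f) (AlgebraicClosure (KX f))).comp (algebraMap V0 (KX f))) y.pt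
    (by rw [y.comm, ← sp_comp_assoc, hw, h])
  have h1 := fld_eq h hm hb hy
  have hmem : ∀ z, b z ∈ fld h y := fun z => by
    rw [h1]; exact IntermediateField.subset_adjoin _ _ ⟨z, rfl⟩
  let c : B →+* fld h y := b.codRestrict (fld h y).toSubalgebra.toSubring hmem
  have hc : ∀ r : V0, c (algebraMap V0 B r) = algebraMap (KX f) (fld h y) r := fun r =>
    Subtype.ext (congrArg (fun t : V0 →+* AlgebraicClosure (KX f) => t r) hb)
  have hcV : ∀ z, c z ∈ V := by
    intro z
    let ι : V0 →+* V := ((algebraMap (KX f) (fld h y)).comp (algebraMap V0 (KX f))).codRestrict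
      V.toSubring fun r => r.2
    obtain ⟨P, hP, hPz⟩ := Algebra.IsIntegral.isIntegral (R := V0) z
    have h2 : _root_.IsIntegral V (c z) := by
      refine ⟨P.map ι, hP.map ι, ?_⟩
      have h3 := congrArg c hPz
      rw [Polynomial.hom_eval₂, map_zero] at h3
      rw [Polynomial.eval₂_map, ← h3]
      congr 1
      exact RingHom.ext fun r => (hc r).symm
    obtain ⟨v, hv⟩ := IsIntegrallyClosed.isIntegral_iff.1 h2
    exact hv ▸ v.2
  have hm' : ∀ r : V0, V.valuation (c (algebraMap V0 B r)) < 1 ↔ r ∈ maximalIdeal V0 := by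
    intro r
    rw [hc, V0.valuation_lt_one_iff]
    exact ((comap_isEquiv (F := KX f) V).lt_one_iff_lt_one).symm
  obtain ⟨z, r, hr, e⟩ := exists_frac hb (x := x) (h1.le x.2)
  have e' : x * c (algebraMap V0 B r) = c z := Subtype.ext e
  have hr' : c (algebraMap V0 B r) ≠ 0 := by
    rw [hc]
    exact (map_ne_zero _).2 fun h => hr (Subtype.ext h)
  obtain ⟨r', hr''⟩ := val_of_unram hV c hcV hm' z (by rw [← e']; exact mul_ne_zero hx0 hr')
  refine ⟨(r' : KX f) / r, ?_⟩
  rw [map_div₀, map_div₀, ← hc, ← hc, hr'', ← e', map_mul,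
    mul_div_cancel_right₀ _ ((map_ne_zero _).2 hr')]

theorem norm_chart {L : Type u} [Field L] [Algebra (KX f) L] [FiniteDimensional (KX f) L]
    [Algebra k L] [IsScalarTower k (KX f) L] (hL : IsUnramified k (KX f) L)
    (g : Spec (.of L) ⟶ X) (hg : sp (algebraMap (KX f) L) ≫ eta0 f = g) [QuasiCompact g]
    [QuasiSeparated g] (x : X) : ∃ (U : X.affineOpens) (_ : x ∈ U.1) (B : Type u) (_ : CommRing B)
      (φ : Fn f U →+* B) (ι : Spec (.of B) ⟶ g.normalization), φ.Finite ∧ φ.Etale ∧
      IsPullback (sp φ) ι U.2.fromSpec g.fromNormalization ∧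
      IsPullback g.toNormalization (sp (algebraMap (KX f) L)) g.fromNormalization (eta0 f) := by
  obtain ⟨U, hx, hD⟩ := exists_chart f x
  have hU := gen_mem hx
  have := fn_domain f U hU
  letI : Algebra (Fn f U) (KX f) := (fnK f U hU).toRingHom.toAlgebra
  have := fnK_frac f U hU
  letI : Algebra (Fn f U) L := ((algebraMap (KX f) L).comp (fnK f U hU).toRingHom).toAlgebra
  have : IsScalarTower (Fn f U) (KX f) L := IsScalarTower.of_algebraMap_eq' rfl
  have : IsScalarTower k (Fn f U) L := IsScalarTower.of_algebraMap_eq fun c => by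
    rw [IsScalarTower.algebraMap_apply k (KX f) L, ← (fnK f U hU).commutes]
    rfl
  have h0 : sp (algebraMap (Fn f U) (KX f)) ≫ U.2.fromSpec = eta0 f := fnK_spec f U hU
  have hg' : sp (algebraMap (Fn f U) L) ≫ U.2.fromSpec = g := by
    rw [← hg, ← h0, sp_comp_assoc, ← IsScalarTower.algebraMap_eq]
  have htop : g ⁻¹ᵁ U.1 = ⊤ := by
    refine top_le_iff.1 fun y _ => ?_
    change g y ∈ U.1
    rw [← hg', Scheme.Hom.comp_apply]
    exact U.2.range_fromSpec.le ⟨_, rfl⟩
  have hE : IsAffineOpen (g ⁻¹ᵁ U.1) := by rw [htop]; exact isAffineOpen_top _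
  let E := Γ(Spec (.of L), g ⁻¹ᵁ U.1)
  have hiso : IsIso hE.fromSpec :=
    isIso_of_isOpenImmersion_of_opensRange_eq_top _ (hE.opensRange_fromSpec.trans htop)
  obtain ⟨θ, hθ⟩ := sp_surj (A := E) (B := L) (inv hE.fromSpec)
  have hθb : Function.Bijective θ :=
    (isIso_SpecMap_iff (f := CommRingCat.ofHom θ)).1 (by
      change IsIso (sp θ)
      rw [hθ]; infer_instance)
  let ψ : Fn f U →+* E := (g.app U.1).hom
  letI : Algebra (Fn f U) E := ψ.toAlgebra
  let B : Type u := integralClosure (Fn f U) E
  have h1 : θ.comp ψ = algebraMap (Fn f U) L := by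
    apply sp_inj
    rw [← cancel_mono U.2.fromSpec, ← sp_comp, hθ, Category.assoc, IsIso.inv_comp_eq, hg',
      ← IsAffineOpen.SpecMap_appLE_fromSpec g U.2 hE le_rfl, ← Scheme.Hom.app_eq_appLE]
    rfl
  let β : B →+* E := (integralClosure (Fn f U) E).val.toRingHom
  letI : Algebra B L := (θ.comp β).toAlgebra
  have : IsScalarTower (Fn f U) B L := IsScalarTower.of_algebraMap_eq' h1.symm
  let θ' : E ≃ₐ[Fn f U] L := AlgEquiv.ofBijective
    { θ with commutes' := fun a => congrArg (fun t : Fn f U →+* L => t a) h1 } hθb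
  have : IsIntegralClosure B (Fn f U) L :=
    ⟨hθb.1.comp Subtype.val_injective, fun {z} => ⟨fun hz =>
      ⟨⟨θ'.symm z, hz.map θ'.symm.toAlgHom⟩, θ'.apply_symm_apply z⟩, by
        rintro ⟨b, rfl⟩
        exact b.2.map θ'.toAlgHom⟩⟩
  obtain ⟨hfin, het⟩ := etale_closure k (Fn f U) (KX f) L B hL
  let ι : Spec (.of B) ⟶ g.normalization := g.normalizationOpenCover.f U
  have hι : IsOpenImmersion ι := g.normalizationOpenCover.map_prop U
  have hp : IsPullback (sp (algebraMap (Fn f U) B)) ι U.2.fromSpec g.fromNormalization :=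
    IsOpenImmersion.isPullback _ _ _ _ (g.ι_fromNormalization U)
      (by rw [U.2.opensRange_fromSpec]; exact g.fromNormalization_preimage U)
  refine ⟨U, hx, B, inferInstance, algebraMap _ B, ι, hfin, het, hp, ?_⟩
  have hloc : IsLocalization ((Fn f U)⁰.map (algebraMap (Fn f U) B)) L :=
    IsIntegralClosure.isLocalization (Fn f U) (KX f) L B
  have hq : IsPullback (sp (algebraMap B L)) (sp (algebraMap (KX f) L))
      (sp (algebraMap (Fn f U) B)) (sp (algebraMap (Fn f U) (KX f))) :=
    isPullback_SpecMap_of_isPushout _ _ _ _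
      (CommRingCat.isPushout_of_isLocalization (algebraMap (Fn f U) B) (algebraMap (KX f) L)
        (by rw [← IsScalarTower.algebraMap_eq, ← IsScalarTower.algebraMap_eq]) (Fn f U)⁰)
  have h2 := hq.paste_horiz hp.flip
  have h3 : sp (algebraMap B L) ≫ ι = g.toNormalization := by
    have h4 : (g ⁻¹ᵁ U.1).ι ≫ g.toNormalization = (g ⁻¹ᵁ U.1).toSpecΓ ≫ sp β ≫ ι :=
      g.ι_toNormalization U
    rw [← hE.toSpecΓ_fromSpec, Category.assoc, ← hE.isoSpec_hom, cancel_epi] at h4
    rw [← IsIso.inv_hom_id_assoc hE.fromSpec g.toNormalization, h4, ← hθ]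
    exact (sp_comp_assoc β θ ι).symm
  rwa [h3, h0] at h2

theorem covers_unr {L : IntermediateField (KX f) (AlgebraicClosure (KX f))} (hL : IsFinUnr k L) :
    Covers (eta0 f) L := by
  have := hL.1
  let g : Spec (.of L) ⟶ X := sp (algebraMap (KX f) L) ≫ eta0 f
  have hqc : QuasiCompact g := ⟨fun U _ _ => (Set.toFinite _).isCompact⟩
  have hqs : QuasiSeparated g := QuasiSeparated.of_quasiSeparatedSpace g
  have key := norm_chart f hL.2 g rfl
  have loc : ∀ (P : MorphismProperty Scheme.{u}) [IsZariskiLocalAtTarget P],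
      (∀ (A B : Type u) [CommRing A] [CommRing B] (φ : A →+* B), φ.Finite → φ.Etale → P (sp φ)) →
      P g.fromNormalization := by
    intro P _ hP
    refine IsZariskiLocalAtTarget.of_forall_exists_morphismRestrict fun x => ?_
    obtain ⟨U, hx, B, _, φ, ι, h1, h2, h3, -⟩ := key x
    refine ⟨U.2.fromSpec.opensRange, by rwa [U.2.opensRange_fromSpec], ?_⟩
    rw [P.arrow_mk_iso_iff (morphismRestrictOpensRange _ _),
      ← P.cancel_left_of_respectsIso h3.flip.isoPullback.hom, IsPullback.isoPullback_hom_snd]
    exact hP _ _ φ h1 h2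
  have hfin : IsFinite g.fromNormalization :=
    loc @IsFinite fun _ _ _ _ φ h _ => (IsFinite.SpecMap_iff (CommRingCat.ofHom φ)).2 h
  have het : Etale g.fromNormalization := loc @Etale fun _ _ _ _ φ _ h =>
    (HasRingHomProperty.Spec_iff (P := @Etale) (φ := CommRingCat.ofHom φ)).2 h
  obtain ⟨-, -, -, -, -, -, -, -, -, hp⟩ := key (genericPoint X)
  exact ⟨⟨g.normalization, g.fromNormalization⟩, g.toNormalization, hp, fun D z hz =>
    ⟨g.normalizationDesc z D.π hz.symm, g.normalizationDesc_comp _ _ _,
      g.toNormalization_normalizationDesc _ _ _⟩⟩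

/-- the restriction to the maximal unramified extension -/
noncomputable def resM : GalK (KX f) →* Gal(maxUnr k (KX f)/KX f) :=
  AlgEquiv.restrictNormalHom (maxUnr k (KX f))

omit [CharZero k] [SmoothOfRelativeDimension 1 f] in
theorem resM_surj : Function.Surjective (resM f) := AlgEquiv.restrictNormalHom_surjective _

omit [CharZero k] [SmoothOfRelativeDimension 1 f] in
theorem resM_apply (g : GalK (KX f)) (x : maxUnr k (KX f)) :
    (resM f g x : AlgebraicClosure (KX f)) = g x :=
  AlgEquiv.restrictNormalHom_apply _ g x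

/-- the Galois group of the maximal unramified extension is the fundamental group -/
theorem exists_theta [IsProper f] {η : Spec (.of (AlgebraicClosure (KX f))) ⟶ X}
    (h : sp (algebraMap (KX f) (AlgebraicClosure (KX f))) ≫ eta0 f = η) :
    ∃ Θ : Gal(maxUnr k (KX f)/KX f) ≃* Pi1 η, Continuous Θ ∧ Continuous Θ.symm ∧
      ∀ g, Θ (resM f g) = act h g := by
  have := charZero_KX f
  have hker : (resM f).ker = (maxUnr k (KX f)).fixingSubgroup :=
    IntermediateField.restrictNormalHom_ker _
  have h1 : (resM f).ker ≤ (act h).ker := by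
    intro g hg
    rw [hker] at hg
    refine path_ext fun C y => congrArg Fib.pt ?_
    have h2 : g ∈ stab h y := by
      rw [(fld_spec h y).2.1]
      exact IntermediateField.fixingSubgroup_le (fld_unr f h y).le_maxUnr hg
    exact h2
  have h2 : (act h).ker ≤ (resM f).ker := by
    intro g hg
    rw [hker]
    rintro ⟨x, hx⟩
    obtain ⟨L, hL, hxL⟩ := exists_finUnr_mem hx
    exact (covers_unr f hL).fix h hg ⟨x, hxL⟩
  let Θ0 := (resM f).liftOfRightInverse _ (Function.rightInverse_surjInv (resM_surj f)) ⟨_, h1⟩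
  have h3 : ∀ g, Θ0 (resM f g) = act h g := fun g =>
    (resM f).liftOfRightInverse_comp_apply _ _ _ g
  have hb : Function.Bijective Θ0 := by
    refine ⟨(injective_iff_map_eq_one _).2 fun γ hγ => ?_, fun γ => ?_⟩
    · obtain ⟨g, rfl⟩ := resM_surj f γ
      rw [h3] at hγ
      exact h2 hγ
    · obtain ⟨g, rfl⟩ := act_surjective h (fun C y => covers_unr f (fld_unr f h y)) γ
      exact ⟨_, h3 g⟩
  have hc : Continuous Θ0 := by
    have h4 : Continuous (resM f) := InfiniteGalois.restrictNormalHom_continuous _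
    rw [(h4.isClosedMap.isQuotientMap h4 (resM_surj f)).continuous_iff]
    exact (continuous_act h).congr fun g => (h3 g).symm
  let Θ := MulEquiv.ofBijective Θ0 hb
  exact ⟨Θ, hc, (Continuous.homeoOfEquivCompactToT2 (f := Θ.toEquiv) hc).continuous_invFun, h3⟩

end Vale.Agent.P025Z
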