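import Vale.Agent.P025Z.Path

/-! # Smooth curves: integrality, charts, the function field -/

set_option backward.isDefEq.respectTransparency false
set_option linter.style.haveILetI false

open CategoryTheory CategoryTheory.Limits AlgebraicGeometry TensorProduct Polynomial
open scoped nonZeroDivisors

namespace Vale.Agent.P025Z

universe u

theorem exists_idem_of_etale (P A : Type u) [CommRing P] [IsDomain P] [IsIntegrallyClosed P]
    [CommRing A] [Algebra P A] [Algebra.Etale P A] : _root_.IsReduced A ∧ ∀ S : Set A, ∃ ε : A,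
      (∀ a ∈ S, a * (1 - ε) = 0) ∧ ∀ b, (∀ a ∈ S, a * b = 0) → b * ε = 0 := by
  let K := FractionRing P
  have hflat : Module.Flat P A := inferInstance
  have hle : Algebra.algebraMapSubmonoid A P⁰ ≤ A⁰ := by
    rintro _ ⟨x, hx, rfl⟩
    have h := Module.Flat.isSMulRegular_of_nonZeroDivisors (M := A) hx
    refine mem_nonZeroDivisors_iff_left.2 fun a ha => h ?_
    change x • a = x • 0
    rw [smul_zero, Algebra.smul_def, ha]
  have inj : Function.Injective (algebraMap A (A ⊗[P] K)) := IsLocalization.injective _ hle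
  have hfin : Module.Finite K (K ⊗[P] A) := Algebra.FormallyUnramified.finite_of_free K _
  have hred : _root_.IsReduced (K ⊗[P] A) := Algebra.FormallyUnramified.isReduced_of_field K _
  have hart : IsArtinianRing (K ⊗[P] A) := IsArtinianRing.of_finite K _
  have hss' : IsSemisimpleRing (K ⊗[P] A) := IsArtinianRing.isSemisimpleRing_of_isReduced _
  have hss : IsSemisimpleRing (A ⊗[P] K) :=
    (Algebra.TensorProduct.comm P K A).toRingEquiv.isSemisimpleRing
  have hred' : _root_.IsReduced (A ⊗[P] K) :=
    isReduced_of_injective (Algebra.TensorProduct.comm P A K) (AlgEquiv.injective _)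
  have hint : ∀ x : A ⊗[P] K, _root_.IsIntegral A x → ∃ a, algebraMap A (A ⊗[P] K) a = x := by
    intro x hx
    obtain ⟨t, ht⟩ := (TensorProduct.toIntegralClosure_bijective_of_smooth
      (R := P) (S := A) (B := K)).2 ⟨x, hx⟩
    have hx' : x = (TensorProduct.toIntegralClosure P A K t : A ⊗[P] K) := by rw [ht]
    rw [hx']
    clear ht hx' hx x
    induction t with
    | zero => exact ⟨0, by simp⟩
    | add a b ha hb =>
      obtain ⟨a', ha'⟩ := ha
      obtain ⟨b', hb'⟩ := hb
      exact ⟨a' + b', by rw [map_add, map_add, ha', hb']; rfl⟩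
    | tmul a y =>
      obtain ⟨z, hz⟩ := (isIntegrallyClosed_iff K).1 ‹_› y.2
      refine ⟨z • a, ?_⟩
      have : (TensorProduct.toIntegralClosure P A K (a ⊗ₜ[P] y) : A ⊗[P] K) = a ⊗ₜ[P] (y : K) := rfl
      rw [this, ← hz, Algebra.algebraMap_eq_smul_one (R := P) (A := K) z, ← TensorProduct.smul_tmul]
      rfl
  refine ⟨isReduced_of_injective _ inj, fun S => ?_⟩
  obtain ⟨e, he, hS⟩ := IsSemisimpleRing.ideal_eq_span_idempotent
    (Ideal.span (algebraMap A (A ⊗[P] K) '' S))
  obtain ⟨ε, rfl⟩ := hint e ⟨Polynomial.X ^ 2 - Polynomial.X,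
    Polynomial.monic_X_pow_sub (Polynomial.degree_X_le.trans_lt (by norm_num)), by simp [sq, he.eq]⟩
  refine ⟨ε, fun a ha => inj ?_, fun b hb => inj ?_⟩
  · have h1 : algebraMap A (A ⊗[P] K) a ∈ Ideal.span {algebraMap A (A ⊗[P] K) ε} :=
      hS ▸ Ideal.subset_span ⟨a, ha, rfl⟩
    obtain ⟨c, hc⟩ := Ideal.mem_span_singleton'.1 h1
    rw [map_mul, map_sub, map_one, ← hc, mul_assoc, mul_sub, he.eq, mul_one, sub_self, mul_zero,
      map_zero]
  · have h1 : ∀ x ∈ Ideal.span (algebraMap A (A ⊗[P] K) '' S),
        algebraMap A (A ⊗[P] K) b * x = 0 := by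
      intro x hx
      induction hx using Submodule.span_induction with
      | mem x hx =>
        obtain ⟨a, ha, rfl⟩ := hx
        rw [← map_mul, mul_comm, hb a ha, map_zero]
      | zero => exact mul_zero _
      | add x y _ _ hx hy => rw [mul_add, hx, hy, add_zero]
      | smul c x _ hx => rw [smul_eq_mul, mul_left_comm, hx, mul_zero]
    rw [map_mul, map_zero]
    exact h1 _ (hS ▸ Ideal.mem_span_singleton_self _)

theorem dedekind_of_unramified (P A : Type u) [CommRing P] [IsDomain P] [IsPrincipalIdealRing P]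
    [CommRing A] [IsDomain A] [Algebra P A] [Algebra.FiniteType P A]
    [Algebra.FormallyUnramified P A] : IsDedekindDomain A := by
  have hN : IsNoetherianRing A := Algebra.FiniteType.isNoetherianRing P A
  have : IsDedekindDomainDvr A :=
    { hN with
      is_dvr_at_nonzero_prime := by
        intro q hq hqp
        suffices (IsLocalRing.maximalIdeal (Localization.AtPrime q)).IsPrincipal from
          ((IsDiscreteValuationRing.TFAE (Localization.AtPrime q)
            (IsLocalization.AtPrime.not_isField A hq (Localization.AtPrime q))).out 4 0).mp this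
        let p := q.under P
        let := Localization.AtPrime.algebraOfLiesOver p q
        have h1 := ((Algebra.isUnramifiedAt_iff_map_eq P p q).1 inferInstance).2
        rw [← h1]
        infer_instance }
  infer_instance

theorem mem_basicOpen_iff {X : Scheme.{u}} {U : X.Opens} (hU : IsAffineOpen U) {x : X}
    (hx : x ∈ U) (a : Γ(X, U)) : x ∈ X.basicOpen a ↔ a ∉ (hU.primeIdealOf ⟨x, hx⟩).asIdeal := by
  have h1 : hU.primeIdealOf ⟨x, hx⟩ ∈ hU.fromSpec ⁻¹ᵁ X.basicOpen a ↔
      hU.fromSpec (hU.primeIdealOf ⟨x, hx⟩) ∈ X.basicOpen a := Iff.rfl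
  rw [hU.fromSpec_primeIdealOf, hU.fromSpec_preimage_basicOpen] at h1
  exact h1.symm

variable {k : Type u} [Field k] {X : Scheme.{u}} (f : X ⟶ Spec (.of k))

theorem fromSpec_comp (U : X.affineOpens) :
    U.2.fromSpec ≫ f = Spec.map (CommRingCat.ofHom (algebraMap k (Fn f U))) := by
  rw [← IsAffineOpen.SpecMap_appLE_fromSpec f (isAffineOpen_top _) U.2 le_top,
    IsAffineOpen.fromSpec_top, Scheme.isoSpec_Spec_inv, ← Spec.map_comp]
  rfl

/-- etale coordinates -/
theorem exists_coord [h : SmoothOfRelativeDimension 1 f] (x : X) :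
    ∃ U : X.affineOpens, x ∈ U.1 ∧ ∃ g : k[X] →ₐ[k] Fn f U, g.toRingHom.Etale := by
  obtain ⟨U, hU, W, hW, hx, e, hf⟩ := h.exists_isStandardSmoothOfRelativeDimension x
  have hUt : U = ⊤ := by
    refine TopologicalSpace.Opens.ext (Set.eq_univ_of_forall fun y => ?_)
    rw [Subsingleton.elim y (f x)]
    exact e hx
  subst hUt
  have h3 : (algebraMap k (Fn f ⟨W, hW⟩)).IsStandardSmoothOfRelativeDimension 1 :=
    RingHom.isStandardSmoothOfRelativeDimension_respectsIso.2 _
      (Scheme.ΓSpecIso (CommRingCat.of k)).symm.commRingCatIsoToRingEquiv hf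
  have h4 : Algebra.IsStandardSmoothOfRelativeDimension 1 k (Fn f ⟨W, hW⟩) :=
    (RingHom.isStandardSmoothOfRelativeDimension_algebraMap 1).1 h3
  obtain ⟨g, hg⟩ := Algebra.IsStandardSmoothOfRelativeDimension.exists_etale_mvPolynomial 1 k
    (Fn f ⟨W, hW⟩)
  refine ⟨⟨W, hW⟩, hx, g.comp (MvPolynomial.uniqueAlgEquiv k (Fin 1)).symm, ?_⟩
  exact RingHom.Etale.respectsIso.2 _ (MvPolynomial.uniqueAlgEquiv k (Fin 1)).symm.toRingEquiv hg

theorem isIntegral_of_smooth [ConnectedSpace X] [SmoothOfRelativeDimension 1 f] :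
    IsIntegral X := by
  have key : ∀ x : X, ∃ U : X.affineOpens, x ∈ U.1 ∧ _root_.IsReduced Γ(X, U.1) ∧
      ∀ S : Set Γ(X, U.1), ∃ ε : Γ(X, U.1), (∀ a ∈ S, a * (1 - ε) = 0) ∧
        ∀ b, (∀ a ∈ S, a * b = 0) → b * ε = 0 := by
    intro x
    obtain ⟨U, hx, g, het⟩ := exists_coord f x
    let _ : Algebra k[X] (Fn f U) := g.toRingHom.toAlgebra
    have : Algebra.Etale k[X] (Fn f U) := het
    exact ⟨U, hx, exists_idem_of_etale k[X] (Fn f U)⟩
  have hred : IsReduced X := by
    have (x : X) : _root_.IsReduced (X.presheaf.stalk x) := by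
      obtain ⟨U, hx, h, -⟩ := key x
      let _ := TopCat.Presheaf.algebra_section_stalk X.presheaf (U := U.1) ⟨x, hx⟩
      have hloc := U.2.isLocalization_stalk ⟨x, hx⟩
      exact isReduced_localizationPreserves (U.2.primeIdealOf ⟨x, hx⟩).asIdeal.primeCompl _ h
    exact isReduced_of_isReduced_stalk X
  have hed : ExtremallyDisconnected X := by
    refine ⟨fun W hW => isOpen_iff_forall_mem_open.2 fun x hx => ?_⟩
    obtain ⟨U, hxU, -, h⟩ := key x
    obtain ⟨ε, h1, h2⟩ := h {a | (X.basicOpen a : Set X) ⊆ W}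
    refine ⟨X.basicOpen ε, fun y hy => ?_, (X.basicOpen ε).isOpen, ?_⟩
    · rw [mem_closure_iff]
      intro N hN hyN
      obtain ⟨b, hb, hyb⟩ := U.2.exists_basicOpen_le (V := ⟨N, hN⟩) ⟨y, hyN⟩ (X.basicOpen_le ε hy)
      by_contra hcon
      have h3 : b * ε = 0 := h2 b fun a ha => by
        rw [← basicOpen_eq_bot_iff, Scheme.basicOpen_mul, eq_bot_iff]
        exact fun z hz => hcon ⟨z, hb hz.2, ha hz.1⟩
      have h4 : y ∈ X.basicOpen (b * ε) := by
        rw [Scheme.basicOpen_mul]
        exact ⟨hyb, hy⟩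
      rw [h3, Scheme.basicOpen_zero] at h4
      exact h4
    · by_contra hcon
      have h3 : x ∈ X.basicOpen (1 - ε) := by
        rw [SetLike.mem_coe, mem_basicOpen_iff U.2 hxU, not_not] at hcon
        rw [mem_basicOpen_iff U.2 hxU]
        intro h4
        have h5 := Ideal.add_mem _ h4 hcon
        rw [sub_add_cancel] at h5
        exact (U.2.primeIdealOf ⟨x, hxU⟩).isPrime.ne_top ((Ideal.eq_top_iff_one _).2 h5)
      obtain ⟨y, hy1, hy2⟩ := mem_closure_iff.1 hx _ (X.basicOpen (1 - ε)).isOpen h3
      obtain ⟨a, ha, hya⟩ := U.2.exists_basicOpen_le (V := ⟨W, hW⟩) ⟨y, hy2⟩ (X.basicOpen_le _ hy1)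
      have h4 : y ∈ X.basicOpen (a * (1 - ε)) := by
        rw [Scheme.basicOpen_mul]
        exact ⟨hya, hy1⟩
      rw [h1 a ha, Scheme.basicOpen_zero] at h4
      exact h4
  have : PreirreducibleSpace X := ExtremallyDisconnected.toPreirreducibleSpace
  have : IrreducibleSpace X := ⟨inferInstance⟩
  exact isIntegral_of_irreducibleSpace_of_isReduced X

theorem connected_of_geom [GeometricallyConnected f] : ConnectedSpace X :=
  GeometricallyConnected.geometrically_connectedSpace (𝟙 (Spec (.of k))) (𝟙 X) f
    (IsPullback.of_horiz_isIso ⟨by rw [Category.id_comp, Category.comp_id]⟩)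

section field

variable [IsIntegral X]

/-- the function field -/
def KX (_f : X ⟶ Spec (.of k)) : Type u := X.functionField

noncomputable instance KX.field : Field (KX f) := inferInstanceAs (Field X.functionField)

/-- the generic point -/
noncomputable def eta0 : Spec (.of (KX f)) ⟶ X := X.fromSpecStalk (genericPoint X)

noncomputable instance KX.algebra : Algebra k (KX f) := (Spec.preimage (eta0 f ≫ f)).hom.toAlgebra

theorem eta0_comp : eta0 f ≫ f = Spec.map (CommRingCat.ofHom (algebraMap k (KX f))) :=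
  (Spec.map_preimage _).symm

instance : Mono (eta0 f) := inferInstanceAs (Mono (X.fromSpecStalk _))

/-- the local ring at `x` in the function field -/
noncomputable def toK (x : X) : X.presheaf.stalk x →+* KX f :=
  algebraMap (X.presheaf.stalk x) X.functionField

theorem toK_spec (x : X) : Spec.map (CommRingCat.ofHom (toK f x)) ≫ X.fromSpecStalk x = eta0 f :=
  Scheme.SpecMap_stalkSpecializes_fromSpecStalk ((genericPoint_spec X).specializes trivial)

theorem toK_inj (x : X) : Function.Injective (toK f x) :=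
  IsFractionRing.injective (X.presheaf.stalk x) X.functionField

theorem gen_mem {U : X.Opens} {x : X} (hx : x ∈ U) : genericPoint X ∈ U :=
  ((genericPoint_spec X).mem_open_set_iff U.isOpen).mpr ⟨x, trivial, hx⟩

theorem germ_spec (U : X.affineOpens) (hU : genericPoint X ∈ U.1) :
    Spec.map (X.presheaf.germ U.1 _ hU) ≫ U.2.fromSpec = eta0 f :=
  U.2.fromSpecStalk_eq_fromSpecStalk hU

/-- functions on `U` as rational functions -/
noncomputable def fnK (U : X.affineOpens) (hU : genericPoint X ∈ U.1) : Fn f U →ₐ[k] KX f :=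
  { (X.presheaf.germ U.1 _ hU).hom with
    commutes' := fun c => by
      have h1 : CommRingCat.ofHom (algebraMap k (Fn f U)) ≫ X.presheaf.germ U.1 _ hU =
          CommRingCat.ofHom (algebraMap k (KX f)) := by
        apply Spec.map_injective
        rw [Spec.map_comp, ← fromSpec_comp, ← eta0_comp, reassoc_of% (germ_spec f U hU)]
      exact congrArg (fun m : CommRingCat.of k ⟶ CommRingCat.of (KX f) => m.hom c) h1 }

theorem fnK_spec (U : X.affineOpens) (hU : genericPoint X ∈ U.1) :
    Spec.map (CommRingCat.ofHom (fnK f U hU).toRingHom) ≫ U.2.fromSpec = eta0 f :=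
  germ_spec f U hU

theorem fnK_res {U V : X.affineOpens} (h : V.1 ≤ U.1) (hV : genericPoint X ∈ V.1) (a : Fn f U) :
    fnK f V hV (Fn.res f h a) = fnK f U (h hV) a :=
  X.presheaf.germ_res_apply (homOfLE h) _ hV a

theorem toK_germ (U : X.affineOpens) {x : X} (hx : x ∈ U.1) (a : Fn f U) :
    toK f x (X.presheaf.germ U.1 x hx a) = fnK f U (gen_mem hx) a := by
  have : Nonempty U.1 := ⟨⟨x, hx⟩⟩
  exact Scheme.algebraMap_germ_eq_germToFunctionField X hx a

theorem fnK_frac (U : X.affineOpens) (hU : genericPoint X ∈ U.1) :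
    letI := (fnK f U hU).toRingHom.toAlgebra
    IsFractionRing (Fn f U) (KX f) := by
  have : Nonempty U.1 := ⟨⟨_, hU⟩⟩
  exact functionField_isFractionRing_of_isAffineOpen X U.1 U.2

theorem fn_domain (U : X.affineOpens) (hU : genericPoint X ∈ U.1) : IsDomain (Fn f U) := by
  have : Nonempty U.1 := ⟨⟨_, hU⟩⟩
  exact inferInstanceAs (IsDomain Γ(X, U.1))

variable [SmoothOfRelativeDimension 1 f]

theorem exists_chart (x : X) : ∃ U : X.affineOpens, ∃ hx : x ∈ U.1,
    haveI := fn_domain f U (gen_mem hx)
    IsDedekindDomain (Fn f U) := by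
  obtain ⟨U, hx, g, het⟩ := exists_coord f x
  let _ : Algebra k[X] (Fn f U) := g.toRingHom.toAlgebra
  have : Algebra.Etale k[X] (Fn f U) := het
  have := fn_domain f U (gen_mem hx)
  exact ⟨U, hx, dedekind_of_unramified k[X] (Fn f U)⟩

include f in
theorem stalk_pir (x : X) : IsPrincipalIdealRing (X.presheaf.stalk x) := by
  obtain ⟨U, hx, h⟩ := exists_chart f x
  have := fn_domain f U (gen_mem hx)
  let _ : Algebra (Fn f U) (X.presheaf.stalk x) :=
    TopCat.Presheaf.algebra_section_stalk X.presheaf (U := U.1) ⟨x, hx⟩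
  let p : Ideal (Fn f U) := (U.2.primeIdealOf ⟨x, hx⟩).asIdeal
  have hp : p.IsPrime := (U.2.primeIdealOf ⟨x, hx⟩).isPrime
  have hloc : IsLocalization.AtPrime (X.presheaf.stalk x) p := U.2.isLocalization_stalk ⟨x, hx⟩
  have hD : IsDedekindDomain (X.presheaf.stalk x) :=
    IsLocalization.AtPrime.isDedekindDomain (Fn f U) p _
  exact ((tfae_of_isNoetherianRing_of_isLocalRing_of_isDomain (X.presheaf.stalk x)).out 2 0).mp hD

include f in
theorem stalk_val (x : X) : ValuationRing (X.presheaf.stalk x) := by
  have := stalk_pir f x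
  infer_instance

/-- the valuation ring of a point -/
noncomputable def vs (x : X) : ValuationSubring (KX f) :=
  ValuationSubring.ofSubring (toK f x).range fun z => by
    have := stalk_val f x
    exact ValuationRing.isInteger_or_isInteger (X.presheaf.stalk x) (K := X.functionField) z

theorem mem_vs {x : X} {z : KX f} : z ∈ vs f x ↔ ∃ a, toK f x a = z := Iff.rfl

theorem exists_trans : ∃ t : KX f, Transcendental k t ∧
    FiniteDimensional (IntermediateField.adjoin k {t}) (KX f) := by
  obtain ⟨U, hx, g, het⟩ := exists_coord f (genericPoint X)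
  have := fn_domain f U hx
  let _ : Algebra k[X] (Fn f U) := g.toRingHom.toAlgebra
  have : Algebra.Etale k[X] (Fn f U) := het
  let _ := (fnK f U hx).toRingHom.toAlgebra
  have := fnK_frac f U hx
  let G := (fnK f U hx).comp g
  let t := G Polynomial.X
  have hG : ∀ q : k[X], G q = aeval t q := fun q => by
    rw [aeval_algHom_apply, aeval_X_left_apply]
  have hginj : Function.Injective g := by
    have hflat : Module.Flat k[X] (Fn f U) := inferInstance
    rw [injective_iff_map_eq_zero]
    intro a ha
    by_contra ha0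
    have h := Module.Flat.isSMulRegular_of_nonZeroDivisors (M := Fn f U)
      (mem_nonZeroDivisors_of_ne_zero ha0)
    have h1 : a • (1 : Fn f U) = a • 0 := by
      rw [Algebra.smul_def, smul_zero, mul_one]
      exact ha
    exact one_ne_zero (h h1)
  refine ⟨t, ?_, ?_⟩
  · rw [transcendental_iff_injective]
    have h1 : Function.Injective G :=
      (IsFractionRing.injective (Fn f U) (KX f)).comp hginj
    exact fun a b hab => h1 (by rw [hG, hG]; exact hab)
  · let _ : Algebra k[X] (KX f) := G.toRingHom.toAlgebra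
    have : IsScalarTower k[X] (Fn f U) (KX f) := IsScalarTower.of_algebraMap_eq' rfl
    have : Algebra.FormallyUnramified (Fn f U) (KX f) :=
      Algebra.FormallyUnramified.of_isLocalization (nonZeroDivisors (Fn f U))
    have : Algebra.FormallyUnramified k[X] (KX f) :=
      Algebra.FormallyUnramified.comp k[X] (Fn f U) (KX f)
    have : Algebra.EssFiniteType (Fn f U) (KX f) :=
      Algebra.EssFiniteType.of_isLocalization _ (nonZeroDivisors (Fn f U))
    have : Algebra.EssFiniteType k[X] (KX f) := Algebra.EssFiniteType.comp k[X] (Fn f U) (KX f)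
    let _ : Algebra k[X] (IntermediateField.adjoin k {t}) :=
      (aeval (IntermediateField.AdjoinSimple.gen k t)).toRingHom.toAlgebra
    have : IsScalarTower k[X] (IntermediateField.adjoin k {t}) (KX f) :=
      IsScalarTower.of_algebraMap_eq fun q => (hG q).trans
        (IntermediateField.AdjoinSimple.coe_aeval_gen_apply k t q).symm
    have : Algebra.FormallyUnramified (IntermediateField.adjoin k {t}) (KX f) :=
      Algebra.FormallyUnramified.of_restrictScalars k[X] _ _
    have : Algebra.EssFiniteType (IntermediateField.adjoin k {t}) (KX f) :=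
      Algebra.EssFiniteType.of_comp k[X] _ _
    exact Algebra.FormallyUnramified.finite_of_free _ _

end field

end Vale.Agent.P025Z
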