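import Mathlib

/-!
# The etale fundamental group of a scheme, sections, the genus of a curve

`FEt X` is the category of finite etale covers of the scheme `X`, `fib x` the fibre functor of a
geometric point `x`, and `Pi1 x` its automorphism group with the profinite topology of
`CategoryTheory.PreGaloisCategory`: the etale fundamental group of `X` at `x`.
-/

open CategoryTheory CategoryTheory.Limits AlgebraicGeometry

namespace Vale.Agent.P025Z

universe u

/-! ### Finite etale covers and fibre functors -/

/-- A finite etale cover `π : Y ⟶ X`. -/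
structure FEt (X : Scheme.{u}) : Type (u + 1) where
  /-- the total space -/
  Y : Scheme.{u}
  /-- the covering map -/
  π : Y ⟶ X
  [finite : IsFinite π]
  [etale : Etale π]

attribute [instance] FEt.finite FEt.etale

/-- The morphisms of covers: the morphisms of schemes over `X`. -/
@[ext]
structure FEt.Hom {X : Scheme.{u}} (C D : FEt X) : Type u where
  /-- the morphism of schemes -/
  map : C.Y ⟶ D.Y
  comm : map ≫ D.π = C.π

/-- The category of finite etale covers of `X`. -/
instance FEt.category (X : Scheme.{u}) : Category.{u} (FEt X) where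
  Hom := FEt.Hom
  id C := ⟨𝟙 _, Category.id_comp _⟩
  comp φ ψ := ⟨φ.map ≫ ψ.map, by rw [Category.assoc, ψ.comm, φ.comm]⟩
  id_comp _ := FEt.Hom.ext (Category.id_comp _)
  comp_id _ := FEt.Hom.ext (Category.comp_id _)
  assoc _ _ _ := FEt.Hom.ext (Category.assoc _ _ _)

/-- Two sections of a scheme over a field with the same image point are equal. -/
theorem sec_ext {Ω : Type u} [Field Ω] {Z : Scheme.{u}} (q : Z ⟶ Spec (.of Ω))
    {s t : Spec (.of Ω) ⟶ Z} (hs : s ≫ q = 𝟙 _) (ht : t ≫ q = 𝟙 _)
    (h : s default = t default) : s = t := by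
  obtain ⟨⟨z, a⟩, rfl⟩ := (Scheme.SpecToEquivOfField Ω Z).symm.surjective s
  obtain ⟨⟨z', b⟩, rfl⟩ := (Scheme.SpecToEquivOfField Ω Z).symm.surjective t
  obtain rfl : z = z' := by simpa [Scheme.SpecToEquivOfField] using h
  obtain ⟨i, hi⟩ := Spec.map_surjective (Z.fromSpecResidueField z ≫ q)
  have key : ∀ c : Z.residueField z ⟶ .of Ω,
      (Scheme.SpecToEquivOfField Ω Z).symm ⟨z, c⟩ ≫ q = 𝟙 _ → i ≫ c = 𝟙 _ := by
    intro c hc
    apply Spec.map_injective
    rw [Spec.map_comp, hi, Spec.map_id]
    simpa [Scheme.SpecToEquivOfField] using hc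
  have ha := key a hs
  have hb := key b ht
  have hab : a = b := by
    ext v
    have h1 : ∀ w, a.hom (i.hom w) = w := fun w => congrArg (fun m => m.hom w) ha
    have h2 : ∀ w, b.hom (i.hom w) = w := fun w => congrArg (fun m => m.hom w) hb
    have h3 : v = i.hom (a.hom v) := a.hom.injective (h1 _).symm
    rw [h3, h1, h2]
  rw [hab]

section fib

variable {X X' : Scheme.{u}} {Ω Ω' : Type u} [Field Ω] [Field Ω']

/-- The fibre of the cover `C` over the geometric point `x`: the lifts of `x` to `C`. -/
@[ext]
structure Fib (x : Spec (.of Ω) ⟶ X) (C : FEt X) : Type u where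
  /-- the lift -/
  pt : Spec (.of Ω) ⟶ C.Y
  comm : pt ≫ C.π = x

instance Fib.finite (x : Spec (.of Ω) ⟶ X) (C : FEt X) : Finite (Fib x C) := by
  have h1 : Finite (pullback C.π x : Scheme.{u}) := by
    have h2 := (pullback.snd C.π x).finite_preimage_singleton default
    rw [← Set.finite_univ_iff]
    exact h2.subset fun z _ => Subsingleton.elim _ _
  refine Finite.of_injective
    (fun y : Fib x C => (pullback.lift y.pt (𝟙 _) (by simpa using y.comm) :
      _ ⟶ pullback C.π x) default) fun y y' h => ?_
  have h3 := sec_ext (pullback.snd C.π x) (pullback.lift_snd _ _ _) (pullback.lift_snd _ _ _) h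
  have h4 := congrArg (· ≫ pullback.fst C.π x) h3
  exact Fib.ext (by simpa only [pullback.lift_fst] using h4)

/-- The image of a point of a fibre under a morphism of covers. -/
noncomputable def Fib.map {x : Spec (.of Ω) ⟶ X} {C D : FEt X} (φ : C.Hom D) (y : Fib x C) :
    Fib x D :=
  ⟨y.pt ≫ φ.map, by rw [Category.assoc, φ.comm, y.comm]⟩

/-- The fibre as a finite set. -/
def Fib.obj (x : Spec (.of Ω) ⟶ X) (C : FEt X) : FintypeCat.{u} := FintypeCat.of (Fib x C)

/-- The map on fibres as a morphism of finite sets. -/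
noncomputable def Fib.hom (x : Spec (.of Ω) ⟶ X) {C D : FEt X} (φ : C.Hom D) :
    Fib.obj x C ⟶ Fib.obj x D :=
  FintypeCat.homMk (Fib.map φ)

theorem Fib.hom_id (x : Spec (.of Ω) ⟶ X) (C : FEt X) : Fib.hom x (𝟙 C) = 𝟙 _ :=
  FintypeCat.hom_ext _ _ fun _ => Fib.ext (Category.comp_id _)

theorem Fib.hom_comp (x : Spec (.of Ω) ⟶ X) {C D E : FEt X} (φ : C ⟶ D) (ψ : D ⟶ E) :
    Fib.hom x (φ ≫ ψ) = Fib.hom x φ ≫ Fib.hom x ψ :=
  FintypeCat.hom_ext _ _ fun _ => Fib.ext (Category.assoc _ _ _).symm

/-- The fibre functor of the geometric point `x`. -/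
noncomputable def fib (x : Spec (.of Ω) ⟶ X) : FEt X ⥤ FintypeCat.{u} where
  obj := Fib.obj x
  map := Fib.hom x
  map_id := Fib.hom_id x
  map_comp := Fib.hom_comp x

/-- The etale paths from `x` to `x'`: isomorphisms of fibre functors. -/
abbrev Path (x : Spec (.of Ω) ⟶ X) (x' : Spec (.of Ω') ⟶ X) : Type (u + 1) := fib x ≅ fib x'

/-- The etale fundamental group of `X` at the geometric point `x`: the automorphism group of the
fibre functor, with its profinite topology. -/
abbrev Pi1 (x : Spec (.of Ω) ⟶ X) : Type (u + 1) := Aut (fib x)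

variable {x : Spec (.of Ω) ⟶ X} {x' : Spec (.of Ω') ⟶ X}

/-- The action of a path on the fibres. -/
noncomputable def ap (φ : Path x x') {C : FEt X} (y : Fib x C) : Fib x' C := φ.hom.app C y

/-- `a` and `b` are mutually inverse families of maps of fibres and `a` is natural. -/
structure IsPath (a : ∀ C, Fib x C → Fib x' C) (b : ∀ C, Fib x' C → Fib x C) : Prop where
  left : ∀ C, Function.LeftInverse (b C) (a C)
  right : ∀ C, Function.RightInverse (b C) (a C)
  nat : ∀ C D (φ : FEt.Hom C D) y, a D (y.map φ) = (a C y).map φ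

section
variable {a : ∀ C, Fib x C → Fib x' C} {b : ∀ C, Fib x' C → Fib x C}

/-- The bijection of fibres given by `a` and `b`. -/
noncomputable def IsPath.iso (h : IsPath a b) (C : FEt X) : Fib.obj x C ≅ Fib.obj x' C :=
  FintypeCat.equivEquivIso (Equiv.mk (a C) (b C) (h.left C) (h.right C))

theorem IsPath.iso_nat (h : IsPath a b) {C D : FEt X} (φ : C.Hom D) :
    Fib.hom x φ ≫ (h.iso D).hom = (h.iso C).hom ≫ Fib.hom x' φ :=
  FintypeCat.hom_ext _ _ (h.nat C D φ)

/-- The path that acts on the fibres by `a`. -/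
noncomputable def IsPath.path (h : IsPath a b) : Path x x' := NatIso.ofComponents h.iso h.iso_nat

end

/-- Transport of loops along a path. -/
noncomputable def Path.conj (φ : Path x x') (γ : Pi1 x) : Pi1 x' := φ.symm ≪≫ γ ≪≫ φ

instance FEt.pull_finite (g : X ⟶ X') (C : FEt X') : IsFinite (pullback.snd C.π g) :=
  inferInstance

instance FEt.pull_etale (g : X ⟶ X') (C : FEt X') : Etale (pullback.snd C.π g) := inferInstance

/-- The pull back of a cover along `g`. -/
noncomputable abbrev FEt.pull (g : X ⟶ X') (C : FEt X') : FEt X :=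
  ⟨pullback C.π g, pullback.snd C.π g⟩

variable (g : X ⟶ X') {z : Spec (.of Ω) ⟶ X'} {z' : Spec (.of Ω') ⟶ X'}

/-- If `g` maps `x` to `z`, a point of `D` over `z` is a point of the pull back of `D` over `x`. -/
noncomputable def Fib.up (h : x ≫ g = z) {D : FEt X'} (v : Fib z D) : Fib x (D.pull g) :=
  ⟨pullback.lift v.pt x (v.comm.trans h.symm), pullback.lift_snd _ _ _⟩

/-- The inverse of `Fib.up`. -/
noncomputable def Fib.down (h : x ≫ g = z) {D : FEt X'} (y : Fib x (D.pull g)) : Fib z D :=
  ⟨y.pt ≫ pullback.fst D.π g, by rw [Category.assoc, pullback.condition, reassoc_of% y.comm, h]⟩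

/-- The action of `φ` on the fibres of the pull back of `D`. -/
noncomputable def Path.pushAp (h : x ≫ g = z) (h' : x' ≫ g = z') (φ : Path x x') (D : FEt X')
    (v : Fib z D) : Fib z' D :=
  (ap φ (v.up g h)).down g h'

theorem Path.isPath_push (h : x ≫ g = z) (h' : x' ≫ g = z') (φ : Path x x') :
    IsPath (φ.pushAp g h h') (Path.pushAp g h' h φ.symm) := by
  have ud : ∀ {Ω : Type u} [Field Ω] {x : Spec (.of Ω) ⟶ X} {z : Spec (.of Ω) ⟶ X'}
      (h : x ≫ g = z) {D : FEt X'} (y : Fib x (D.pull g)), (y.down g h).up g h = y :=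
    fun h _ y => Fib.ext (pullback.hom_ext (pullback.lift_fst _ _ _)
      ((pullback.lift_snd _ _ _).trans y.comm.symm))
  refine ⟨fun D v => ?_, fun D v => ?_, fun C D m v => ?_⟩
  · rw [Path.pushAp, Path.pushAp, ud, show ap φ.symm (ap φ (v.up g h)) = v.up g h from
      ConcreteCategory.congr_hom (φ.hom_inv_id_app _) _]
    exact Fib.ext (pullback.lift_fst _ _ _)
  · rw [Path.pushAp, Path.pushAp, ud, show ap φ (ap φ.symm (v.up g h')) = v.up g h' from
      ConcreteCategory.congr_hom (φ.inv_hom_id_app _) _]
    exact Fib.ext (pullback.lift_fst _ _ _)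
  · let m' : (C.pull g).Hom (D.pull g) := ⟨pullback.lift (pullback.fst C.π g ≫ m.map)
      (pullback.snd C.π g) (by rw [Category.assoc, m.comm, pullback.condition]),
      pullback.lift_snd _ _ _⟩
    have h1 : (v.map m).up g h = (v.up g h).map m' := Fib.ext (pullback.hom_ext
      (by simp [Fib.up, Fib.map, m', pullback.lift_fst, pullback.lift_fst_assoc])
      (by simp [Fib.up, Fib.map, m', pullback.lift_snd]))
    have h2 : ap φ ((v.up g h).map m') = (ap φ (v.up g h)).map m' :=
      ConcreteCategory.congr_hom (φ.hom.naturality (X := C.pull g) (Y := D.pull g) m') _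
    rw [Path.pushAp, Path.pushAp, h1, h2]
    exact Fib.ext (by simp [Fib.down, Fib.map, m', pullback.lift_fst])

/-- The image of a path under a morphism `g` of schemes: it acts on the fibres of a cover `D` of
the target as `φ` acts on the fibres of the pull back of `D`. -/
noncomputable def Path.push (h : x ≫ g = z) (h' : x' ≫ g = z') (φ : Path x x') : Path z z' :=
  (φ.isPath_push g h h').path

/-- The map of fundamental groups induced by a morphism `g` of schemes. -/
noncomputable def Pi1.map (h : x ≫ g = z) (γ : Pi1 x) : Pi1 z := Path.push g h h γ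

end fib

/-! ### Sections -/

section sections

variable (k : Type u) [Field k]

/-- The geometric point `Spec k̄ ⟶ Spec k`. -/
noncomputable def geo : Spec (.of (AlgebraicClosure k)) ⟶ Spec (.of k) :=
  Spec.map (CommRingCat.ofHom (algebraMap k (AlgebraicClosure k)))

/-- The absolute Galois group `G_k = Gal(k̄ / k)` with the Krull topology. -/
abbrev GalK : Type u := AlgebraicClosure k ≃ₐ[k] AlgebraicClosure k

variable {k}

/-- The automorphism `Spec σ` of `Spec k̄`. -/
noncomputable def GalK.spec (σ : GalK k) :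
    Spec (.of (AlgebraicClosure k)) ⟶ Spec (.of (AlgebraicClosure k)) :=
  Spec.map (CommRingCat.ofHom σ.toRingEquiv.toRingHom)

theorem GalK.spec_geo (σ : GalK k) : σ.spec ≫ geo k = geo k := by
  rw [geo, GalK.spec, ← Spec.map_comp, ← CommRingCat.ofHom_comp]
  congr 2
  exact RingHom.ext σ.commutes

/-- The action `y ↦ y ∘ Spec σ` of `G_k` on the fibres over `Spec k̄ ⟶ Spec k`. -/
noncomputable def GalK.act (σ : GalK k) (C : FEt (Spec (.of k))) (y : Fib (geo k) C) :
    Fib (geo k) C :=
  ⟨σ.spec ≫ y.pt, by rw [Category.assoc, y.comm, σ.spec_geo]⟩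

theorem GalK.isPath (σ : GalK k) : IsPath σ.act (GalK.act σ.symm) := by
  have h : ∀ σ : GalK k, GalK.spec σ.symm ≫ σ.spec = 𝟙 _ := fun σ => by
    rw [GalK.spec, GalK.spec, ← Spec.map_comp, ← Spec.map_id]
    congr 1
    ext t
    exact σ.symm_apply_apply t
  exact ⟨fun _ y => Fib.ext (by simp only [GalK.act, reassoc_of% h σ]),
    fun _ y => Fib.ext (by
      have h1 : σ.spec ≫ GalK.spec σ.symm = 𝟙 _ := h σ.symm
      simp only [GalK.act, reassoc_of% h1]),
    fun _ _ _ _ => Fib.ext (Category.assoc _ _ _).symm⟩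

variable (k) in
/-- The identification of `G_k` with the fundamental group of `Spec k`. -/
noncomputable def gal (σ : GalK k) : Pi1 (geo k) := σ.isPath.path

variable {X : Scheme.{u}} (f : X ⟶ Spec (.of k))

/-- The rational points `X(k)`. -/
@[ext]
structure RatPt : Type u where
  /-- the point -/
  val : Spec (.of k) ⟶ X
  comm : val ≫ f = 𝟙 _

/-- The geometric base points: the points of `X` with values in `k̄`. -/
structure BasePt : Type u where
  /-- the point -/
  val : Spec (.of (AlgebraicClosure k)) ⟶ X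
  comm : val ≫ f = geo k

variable {f} (x : BasePt f)

theorem BasePt.comm' : x.val ≫ f = 𝟙 _ ≫ geo k := x.comm.trans (Category.id_comp _).symm

/-- The base point `(x, 1)` of `X_k̄ = X ×_k k̄`. -/
noncomputable def BasePt.up : Spec (.of (AlgebraicClosure k)) ⟶ pullback f (geo k) :=
  pullback.lift x.val (𝟙 _) x.comm'

theorem BasePt.up_fst : x.up ≫ pullback.fst f (geo k) = x.val := pullback.lift_fst _ _ _

/-- The map `Δ_X = π_1(X_k̄) → Π_X = π_1(X)`. -/
noncomputable def BasePt.incl (δ : Pi1 x.up) : Pi1 x.val :=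
  Pi1.map (pullback.fst f (geo k)) x.up_fst δ

/-- The sections of `Π_X → π_1(Spec k) = G_k`: continuous homomorphisms `s` with
`π_1(f) ∘ s = gal`. -/
structure Section where
  /-- the homomorphism -/
  hom : GalK k → Pi1 x.val
  mul : ∀ σ τ, hom (σ * τ) = hom σ * hom τ
  cont : Continuous hom
  sec : ∀ σ, Pi1.map f x.comm (hom σ) = gal k σ

variable {x}

/-- `s` and `s'` are conjugate by `Δ_X`: `s' = δ s δ⁻¹`. -/
def Conj (s s' : Section x) : Prop :=
  ∃ δ : Pi1 x.up, ∀ σ, s'.hom σ = x.incl δ * s.hom σ * (x.incl δ)⁻¹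

theorem RatPt.geo_comm (a : RatPt f) : (geo k ≫ a.val) ≫ f = geo k := by
  rw [Category.assoc, a.comm, Category.comp_id]

/-- `s` is the section `s_a` of the rational point `a`: the homomorphism
`G_k = π_1(Spec k) → π_1(X, a)` induced by `a`, transported to the base point `x` along a path
from `a` to `x` over the trivial path of `Spec k`. -/
def IsSectionAt (a : RatPt f) (s : Section x) : Prop :=
  ∃ φ : Path (geo k ≫ a.val) x.val, φ.push f a.geo_comm x.comm = Iso.refl _ ∧
    ∀ σ, s.hom σ = φ.conj (Pi1.map a.val rfl (gal k σ))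

end sections

/-! ### The genus -/

section genus

/-- The map on differentials induced by a homomorphism `φ` of `k`-algebras. -/
noncomputable def formMap {k A B : Type u} [CommRing k] [CommRing A] [CommRing B] [Algebra k A]
    [Algebra k B] (φ : A →+* B) (h : φ.comp (algebraMap k A) = algebraMap k B) :
    Ω[A⁄k] →ₗ[k] Ω[B⁄k] :=
  letI := φ.toAlgebra
  haveI : IsScalarTower k A B := .of_algebraMap_eq' h.symm
  (KaehlerDifferential.map k k A B).restrictScalars k

/-- The families of vectors that are compatible with the maps `r`. -/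
def Compat {k I : Type u} [Field k] [LE I] {M : I → Type u} [∀ i, AddCommGroup (M i)]
    [∀ i, Module k (M i)] (r : ∀ i j, j ≤ i → M i →ₗ[k] M j) : Submodule k (∀ i, M i) where
  carrier := {ω | ∀ i j h, r i j h (ω i) = ω j}
  zero_mem' := fun _ _ _ => map_zero _
  add_mem' := fun ha hb i j h => by rw [Pi.add_apply, Pi.add_apply, map_add, ha i j h, hb i j h]
  smul_mem' := fun c _ ha i j h => by rw [Pi.smul_apply, Pi.smul_apply, map_smul, ha i j h]

/-- The dimension of the space of compatible families. -/
noncomputable def compatRank {k I : Type u} [Field k] [LE I] {M : I → Type u}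
    [∀ i, AddCommGroup (M i)] [∀ i, Module k (M i)] (r : ∀ i j, j ≤ i → M i →ₗ[k] M j) :
    Cardinal.{u} :=
  Module.rank k (Compat r)

/-- The ring of functions on the affine open set `U` of `X`. -/
noncomputable def Sec {X : Scheme.{u}} (U : X.affineOpens) : CommRingCat.{u} := Γ(X, U.1)

variable {k : Type u} [Field k] {X : Scheme.{u}} (f : X ⟶ Spec (.of k))

/-- The `k`-algebra of functions on the affine open set `U` of `X`. -/
def Fn (_f : X ⟶ Spec (.of k)) (U : X.affineOpens) : Type u := Sec U

noncomputable instance Fn.commRing (U : X.affineOpens) : CommRing (Fn f U) := (Sec U).commRing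

/-- The constant functions. -/
noncomputable def Fn.const (U : X.affineOpens) : k →+* Fn f U :=
  CommRingCat.Hom.hom (R := .of k) (S := Sec U)
    ((Scheme.ΓSpecIso (.of k)).inv ≫ f.appLE ⊤ U.1 le_top)

noncomputable instance Fn.algebra (U : X.affineOpens) : Algebra k (Fn f U) :=
  (Fn.const f U).toAlgebra

/-- The restriction of functions. -/
noncomputable def Fn.res {U V : X.affineOpens} (h : V.1 ≤ U.1) : Fn f U →+* Fn f V :=
  CommRingCat.Hom.hom (R := Sec U) (S := Sec V) (X.presheaf.map (homOfLE h).op)

theorem Fn.res_const {U V : X.affineOpens} (h : V.1 ≤ U.1) :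
    (Fn.res f h).comp (Fn.const f U) = Fn.const f V :=
  RingHom.ext fun c => congrArg
    (fun m : Γ(Spec (.of k), ⊤) ⟶ Γ(X, V.1) => m.hom ((Scheme.ΓSpecIso (.of k)).inv.hom c))
    (f.appLE_map le_top (homOfLE h).op)

/-- The genus of the curve `X / k`: the dimension of `H^0(X, Ω^1_{X/k})`, the space of the families
of differentials on the affine open sets of `X` that are compatible with restriction. -/
noncomputable def genus : Cardinal.{u} :=
  compatRank fun (_ _ : X.affineOpens) h => formMap (Fn.res f h) (Fn.res_const f h)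

end genus

end Vale.Agent.P025Z
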