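import Vale.Agent.P025Z.Place

/-! # The action of the absolute Galois group of the function field on the generic fibres -/

set_option backward.isDefEq.respectTransparency false
set_option linter.style.haveILetI false

open CategoryTheory CategoryTheory.Limits AlgebraicGeometry

namespace Vale.Agent.P025Z

universe u

variable {X : Scheme.{u}}

theorem exists_chart_alg {R : Type u} [CommRing R] (w : Spec (.of R) ⟶ X) (C : FEt X) :
    ∃ (B : Type u) (_ : CommRing B) (_ : Algebra R B), Module.Finite R B ∧ Algebra.Etale R B ∧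
      ∃ m : Spec (.of B) ⟶ C.Y, IsPullback m (sp (algebraMap R B)) C.π w := by
  let Z := pullback C.π w
  have haff : IsAffine Z := isAffine_of_isAffineHom (pullback.snd C.π w)
  obtain ⟨φ, hφ⟩ := sp_surj (A := R) (B := Γ(Z, ⊤)) (Z.isoSpec.inv ≫ pullback.snd C.π w)
  have hfin : φ.Finite := (IsFinite.SpecMap_iff (CommRingCat.ofHom φ)).1 (by
    change IsFinite (sp φ)
    rw [hφ]; infer_instance)
  have het : φ.Etale := (HasRingHomProperty.Spec_iff (P := @Etale) (φ := CommRingCat.ofHom φ)).1 (by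
    change Etale (sp φ)
    rw [hφ]; infer_instance)
  refine ⟨Γ(Z, ⊤), inferInstance, φ.toAlgebra, hfin, het, Z.isoSpec.inv ≫ pullback.fst C.π w, ?_⟩
  exact (IsPullback.of_hasPullback C.π w).of_iso Z.isoSpec (Iso.refl _) (Iso.refl _) (Iso.refl _)
    (by simp) (by
      change _ = Z.isoSpec.hom ≫ sp φ
      rw [hφ]; simp) (by simp) (by simp)

theorem chart_exists {R B A : Type u} [CommRing R] [CommRing B] [CommRing A] {φ : R →+* B}
    {w : Spec (.of R) ⟶ X} {Y : Scheme.{u}} {π : Y ⟶ X} {m : Spec (.of B) ⟶ Y}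
    (h : IsPullback m (sp φ) π w) (ρ : R →+* A) (y : Spec (.of A) ⟶ Y) (hy : y ≫ π = sp ρ ≫ w) :
    ∃ b : B →+* A, b.comp φ = ρ ∧ sp b ≫ m = y := by
  obtain ⟨b, hb⟩ := sp_surj (h.lift y (sp ρ) hy)
  exact ⟨b, sp_inj (by rw [← sp_comp, hb, h.lift_snd]), by rw [hb, h.lift_fst]⟩

theorem chart_unique {R B A : Type u} [CommRing R] [CommRing B] [CommRing A] {φ : R →+* B}
    {w : Spec (.of R) ⟶ X} {Y : Scheme.{u}} {π : Y ⟶ X} {m : Spec (.of B) ⟶ Y}
    (h : IsPullback m (sp φ) π w) {b b' : B →+* A} (h1 : b.comp φ = b'.comp φ)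
    (h2 : sp b ≫ m = sp b' ≫ m) : b = b' :=
  sp_inj (h.hom_ext h2 (by rw [sp_comp, sp_comp, h1]))

variable {K : Type u} [Field K] {η0 : Spec (.of K) ⟶ X}
  {η : Spec (.of (AlgebraicClosure K)) ⟶ X}

/-- an automorphism as a ring homomorphism -/
noncomputable abbrev rh (g : GalK K) : AlgebraicClosure K →+* AlgebraicClosure K := g.toRingEquiv

theorem rh_comp (g : GalK K) :
    (rh g).comp (algebraMap K (AlgebraicClosure K)) = algebraMap K (AlgebraicClosure K) :=
  RingHom.ext g.commutes

/-- the action of the Galois group on the fibres -/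
noncomputable def act (h : sp (algebraMap K (AlgebraicClosure K)) ≫ η0 = η) : GalK K →* Pi1 η :=
  MonoidHom.mk' (fun g => twist g.toRingEquiv (by rw [← h, sp_comp_assoc, rh_comp])) fun g g' =>
    path_ext fun _ y => (sp_comp_assoc (rh g') (rh g) y.pt).symm

variable (h : sp (algebraMap K (AlgebraicClosure K)) ≫ η0 = η)

theorem ap_act (g : GalK K) {C : FEt X} (y : Fib η C) : (ap (act h g) y).pt = sp (rh g) ≫ y.pt :=
  rfl

theorem gal_eq_act : gal K = act (Category.comp_id (geo K)) :=
  funext fun _ => path_ext fun _ _ => rfl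

theorem gal_mul (σ τ : GalK K) : gal K (σ * τ) = gal K σ * gal K τ := by
  rw [gal_eq_act, map_mul]

theorem gal_one : gal K 1 = 1 := by rw [gal_eq_act, map_one]

/-- the stabilizer of a point -/
def stab {C : FEt X} (y : Fib η C) : Subgroup (GalK K) where
  carrier := {g | ap (act h g) y = y}
  one_mem' := by
    change ap (act h 1) y = y
    rw [map_one, ap_one]
  mul_mem' := fun {a b} ha hb => by
    change ap (act h (a * b)) y = y
    rw [map_mul, ap_mul, show ap (act h b) y = y from hb]
    exact ha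
  inv_mem' := fun {a} ha => by
    change ap (act h a⁻¹) y = y
    conv_lhs => rw [← show ap (act h a) y = y from ha]
    rw [← ap_mul, ← map_mul, inv_mul_cancel, map_one, ap_one]

/-- the field of definition of a point -/
noncomputable def fld {C : FEt X} (y : Fib η C) : IntermediateField K (AlgebraicClosure K) :=
  IntermediateField.fixedField (stab h y)

section chart

variable {R B : Type u} [CommRing R] [CommRing B] [Algebra R K] {φ : R →+* B}
  {w : Spec (.of R) ⟶ X} {C : FEt X} {m : Spec (.of B) ⟶ C.Y} {y : Fib η C}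
  {b : B →+* AlgebraicClosure K}

theorem stab_eq (hm : IsPullback m (sp φ) C.π w)
    (hb : b.comp φ = (algebraMap K (AlgebraicClosure K)).comp (algebraMap R K))
    (hy : sp b ≫ m = y.pt) :
    stab h y = (IntermediateField.adjoin K (Set.range b)).fixingSubgroup := by
  apply le_antisymm
  · rw [← IntermediateField.le_iff_le, IntermediateField.adjoin_le_iff]
    rintro _ ⟨z, rfl⟩ ⟨g, hg⟩
    have h1 : sp (rh g) ≫ y.pt = y.pt := congrArg Fib.pt (show ap (act h g) y = y from hg)
    rw [← hy, sp_comp_assoc] at h1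
    have h2 := chart_unique hm (by rw [RingHom.comp_assoc, hb, ← RingHom.comp_assoc, rh_comp]) h1
    exact congrArg (fun t : B →+* AlgebraicClosure K => t z) h2
  · intro g hg
    have h1 : (rh g).comp b = b := RingHom.ext fun z =>
      hg ⟨b z, IntermediateField.subset_adjoin K _ ⟨z, rfl⟩⟩
    refine Fib.ext ?_
    rw [ap_act, ← hy, sp_comp_assoc, h1]

theorem fld_eq [CharZero K] (hm : IsPullback m (sp φ) C.π w)
    (hb : b.comp φ = (algebraMap K (AlgebraicClosure K)).comp (algebraMap R K))
    (hy : sp b ≫ m = y.pt) : fld h y = IntermediateField.adjoin K (Set.range b) := by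
  rw [fld, stab_eq h hm hb hy, InfiniteGalois.fixedField_fixingSubgroup]

theorem exists_frac [IsDomain R] [IsFractionRing R K]
    (hb : b.comp φ = (algebraMap K (AlgebraicClosure K)).comp (algebraMap R K))
    {x : AlgebraicClosure K} (hx : x ∈ IntermediateField.adjoin K (Set.range b)) :
    ∃ (z : B) (r : R), r ≠ 0 ∧ x * b (φ r) = b z := by
  have hb' : ∀ r, b (φ r) = algebraMap K _ (algebraMap R K r) := fun r =>
    congrArg (fun t : R →+* AlgebraicClosure K => t r) hb
  have h1 : x ∈ Algebra.adjoin K (Set.range b) := by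
    rw [← IntermediateField.adjoin_toSubalgebra_of_isAlgebraic
      fun x _ => Algebra.IsAlgebraic.isAlgebraic x]
    exact hx
  clear hx
  induction h1 using Algebra.adjoin_induction with
  | mem x hx =>
    obtain ⟨z, rfl⟩ := hx
    exact ⟨z, 1, one_ne_zero, by rw [map_one, map_one, mul_one]⟩
  | algebraMap c =>
    obtain ⟨a, s, hs, rfl⟩ := IsFractionRing.div_surjective (A := R) c
    have hs0 := nonZeroDivisors.ne_zero hs
    refine ⟨φ a, s, hs0, ?_⟩
    rw [hb', hb', ← map_mul, div_mul_cancel₀]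
    exact (map_ne_zero_iff _ (IsFractionRing.injective R K)).2 hs0
  | add x y _ _ hx hy =>
    obtain ⟨z, r, hr, e⟩ := hx
    obtain ⟨z', r', hr', e'⟩ := hy
    refine ⟨z * φ r' + z' * φ r, r * r', mul_ne_zero hr hr', ?_⟩
    rw [map_add, map_mul, map_mul, map_mul, map_mul, ← e, ← e']
    ring
  | mul x y _ _ hx hy =>
    obtain ⟨z, r, hr, e⟩ := hx
    obtain ⟨z', r', hr', e'⟩ := hy
    refine ⟨z * z', r * r', mul_ne_zero hr hr', ?_⟩
    rw [map_mul, map_mul, map_mul, ← e, ← e']
    ring

end chart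

variable [CharZero K]

theorem fld_spec {C : FEt X} (y : Fib η C) : FiniteDimensional K (fld h y) ∧
    stab h y = (fld h y).fixingSubgroup ∧ ∃ y0 : Spec (.of (fld h y)) ⟶ C.Y,
      y0 ≫ C.π = sp (algebraMap K (fld h y)) ≫ η0 ∧
        sp (algebraMap (fld h y) (AlgebraicClosure K)) ≫ y0 = y.pt := by
  obtain ⟨B, _, _, hfin, -, m, hm⟩ := exists_chart_alg η0 C
  obtain ⟨b, hb, hy⟩ := chart_exists hm (algebraMap K (AlgebraicClosure K)) y.pt
    (y.comm.trans h.symm)
  have hb' : b.comp (algebraMap K B) = (algebraMap K (AlgebraicClosure K)).comp (algebraMap K K) :=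
    hb
  have h1 := fld_eq h hm hb' hy
  have hmem : ∀ z, b z ∈ fld h y := fun z => by
    rw [h1]; exact IntermediateField.subset_adjoin K _ ⟨z, rfl⟩
  let b' : B →ₐ[K] fld h y :=
    { b.codRestrict (fld h y).toSubalgebra.toSubring hmem with
      commutes' := fun c => Subtype.ext
        (congrArg (fun t : K →+* AlgebraicClosure K => t c) hb) }
  refine ⟨Module.Finite.of_surjective b'.toLinearMap fun x => ?_, ?_, sp b'.toRingHom ≫ m, ?_, ?_⟩
  · obtain ⟨z, r, hr, e⟩ := exists_frac hb' (x := x) (h1.le x.2)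
    refine ⟨z * algebraMap K B r⁻¹, Subtype.ext ?_⟩
    change b (z * algebraMap K B r⁻¹) = x
    rw [map_mul, ← e, mul_assoc, ← map_mul, ← map_mul, mul_inv_cancel₀ hr, map_one, map_one,
      mul_one]
  · rw [h1, stab_eq h hm hb' hy]
  · rw [Category.assoc, hm.w, sp_comp_assoc]
    exact congrArg (fun t => sp t ≫ η0) b'.comp_algebraMap
  · rw [sp_comp_assoc]
    exact hy

theorem lc_act {C : FEt X} (y : Fib η C) : IsLocallyConstant fun g => ap (act h g) y := by
  obtain ⟨h1, h2, -⟩ := fld_spec h y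
  have h3 : IsOpen (stab h y : Set (GalK K)) := by
    rw [h2]; exact IntermediateField.fixingSubgroup_isOpen _
  rw [IsLocallyConstant.iff_eventually_eq]
  intro g
  have h4 : IsOpen {g' : GalK K | g⁻¹ * g' ∈ stab h y} := h3.preimage (continuous_const_mul g⁻¹)
  filter_upwards [h4.mem_nhds (show g⁻¹ * g ∈ stab h y by
    rw [inv_mul_cancel]; exact one_mem _)] with g' hg'
  rw [← mul_inv_cancel_left g g', map_mul, ap_mul, show ap (act h (g⁻¹ * g')) y = y from hg']

theorem continuous_act : Continuous (act h) := continuous_pi1 fun _ y => lc_act h y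

variable (η0) in
/-- `L` is the function field of a cover that dominates all covers with a point over `L` -/
def Covers (L : IntermediateField K (AlgebraicClosure K)) : Prop :=
  ∃ (C : FEt X) (y0 : Spec (.of L) ⟶ C.Y), IsPullback y0 (sp (algebraMap K L)) C.π η0 ∧
    ∀ (D : FEt X) (z : Spec (.of L) ⟶ D.Y), z ≫ D.π = sp (algebraMap K L) ≫ η0 →
      ∃ m : C.Y ⟶ D.Y, m ≫ D.π = C.π ∧ y0 ≫ m = z

omit [CharZero K] in
theorem Covers.fix {L : IntermediateField K (AlgebraicClosure K)} (hL : Covers η0 L) {g : GalK K}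
    (hg : act h g = 1) : g ∈ L.fixingSubgroup := by
  obtain ⟨C, y0, hp, -⟩ := hL
  let y : Fib η C := ⟨sp (algebraMap L (AlgebraicClosure K)) ≫ y0, by
    rw [Category.assoc, hp.w, sp_comp_assoc, ← IsScalarTower.algebraMap_eq, h]⟩
  have h1 := ap_act h g y
  rw [hg, ap_one] at h1
  have h2 := chart_unique hp (b := (rh g).comp (algebraMap L _)) (b' := algebraMap L _)
    (by rw [RingHom.comp_assoc, ← IsScalarTower.algebraMap_eq, rh_comp])
    (by rw [← sp_comp_assoc]; exact h1.symm)
  exact fun x => congrArg (fun t : L →+* AlgebraicClosure K => t x) h2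

theorem act_surjective (H : ∀ (C : FEt X) (y : Fib η C), Covers η0 (fld h y)) :
    Function.Surjective (act h) := by
  intro γ
  let S : (Σ C : FEt X, Fib η C) → Set (GalK K) := fun i => {g | ap (act h g) i.2 = ap γ i.2}
  have hcl : ∀ i, IsClosed (S i) := fun i => (lc_act h i.2).isClosed_fiber _
  have hne : ∀ i, (S i).Nonempty := by
    rintro ⟨D, z⟩
    obtain ⟨-, -, z0, hz0, hz⟩ := fld_spec h z
    obtain ⟨C, y0, hp, hd⟩ := H D z
    obtain ⟨m, hm, hy0⟩ := hd D z0 hz0
    let y : Fib η C := ⟨sp (algebraMap (fld h z) (AlgebraicClosure K)) ≫ y0, by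
      rw [Category.assoc, hp.w, sp_comp_assoc, ← IsScalarTower.algebraMap_eq, h]⟩
    have h1 : z.pt = y.pt ≫ m := by rw [Category.assoc, hy0, hz]
    obtain ⟨τ, hτ, hτ'⟩ := chart_exists hp (algebraMap K (AlgebraicClosure K)) (ap γ y).pt
      ((ap γ y).comm.trans h.symm)
    let τ' : fld h z →ₐ[K] AlgebraicClosure K :=
      { τ with commutes' := fun c => congrArg (fun t : K →+* AlgebraicClosure K => t c) hτ }
    let g0 := τ'.liftNormal (AlgebraicClosure K)
    let g : GalK K := AlgEquiv.ofBijective g0 (Algebra.IsAlgebraic.algHom_bijective g0)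
    have h2 : (rh g).comp (algebraMap (fld h z) (AlgebraicClosure K)) = τ :=
      RingHom.ext fun x => τ'.liftNormal_commutes (AlgebraicClosure K) x
    refine ⟨g, Fib.ext ?_⟩
    rw [ap_nat γ m hm y z h1, ap_act, h1, ← hτ', ← Category.assoc, sp_comp_assoc, h2]
  have hdir : Directed (· ⊇ ·) S := by
    rintro ⟨C, y⟩ ⟨D, z⟩
    let E : FEt X := ⟨pullback C.π D.π, pullback.fst C.π D.π ≫ C.π⟩
    let v : Fib η E := ⟨pullback.lift y.pt z.pt (y.comm.trans z.comm.symm), by
      rw [pullback.lift_fst_assoc, y.comm]⟩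
    refine ⟨⟨E, v⟩, fun g hg => Fib.ext ?_, fun g hg => Fib.ext ?_⟩
    · have h1 : y.pt = v.pt ≫ pullback.fst C.π D.π := (pullback.lift_fst _ _ _).symm
      rw [ap_nat (C := E) γ _ rfl v y h1, ap_nat (C := E) (act h g) _ rfl v y h1,
        show ap (act h g) v = ap γ v from hg]
    · have h1 : z.pt = v.pt ≫ pullback.snd C.π D.π := (pullback.lift_snd _ _ _).symm
      rw [ap_nat (C := E) γ _ pullback.condition.symm v z h1,
        ap_nat (C := E) (act h g) _ pullback.condition.symm v z h1,
        show ap (act h g) v = ap γ v from hg]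
  have : Nonempty (Σ C : FEt X, Fib η C) := ⟨⟨⟨X, 𝟙 X⟩, ⟨η, Category.comp_id _⟩⟩⟩
  obtain ⟨g, hg⟩ := IsCompact.nonempty_iInter_of_directed_nonempty_isCompact_isClosed S hdir hne
    (fun i => (hcl i).isCompact) hcl
  exact ⟨g, path_ext fun C y => congrArg Fib.pt (Set.mem_iInter.1 hg ⟨C, y⟩)⟩

theorem covers_spec (L : IntermediateField K (AlgebraicClosure K)) [FiniteDimensional K L] :
    Covers (𝟙 (Spec (.of K))) L := by
  obtain ⟨h1, h2⟩ := etale_sp (k := K) L
  exact ⟨⟨Spec (.of L), sp (algebraMap K L)⟩, 𝟙 _,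
    IsPullback.of_horiz_isIso ⟨by rw [Category.id_comp, Category.comp_id]⟩,
    fun D z hz => ⟨z, hz.trans (Category.comp_id _), Category.id_comp _⟩⟩

variable (K) in
theorem gal_homeo : IsHomeomorph (gal K) := by
  rw [gal_eq_act, isHomeomorph_iff_continuous_bijective]
  refine ⟨continuous_act _, (injective_iff_map_eq_one _).2 fun g hg => ?_,
    act_surjective _ fun C y => ?_⟩
  · ext x
    have := IntermediateField.adjoin.finiteDimensional (Algebra.IsIntegral.isIntegral (R := K) x)
    exact (covers_spec _).fix _ hg ⟨x, IntermediateField.mem_adjoin_simple_self K x⟩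
  · have := (fld_spec (Category.comp_id (geo K)) y).1
    exact covers_spec _

end Vale.Agent.P025Z
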