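import Vale.Agent.P025Z.Cover
import Vale.Agent.P025.R2.H855.Genus
import Vale.Agent.P025.R2.H492.Canon3
import Vale.Agent.P025.R2.H133.Der

/-! # The genus of the curve and the genus of the function field -/

set_option backward.isDefEq.respectTransparency false
set_option linter.style.haveILetI false

open CategoryTheory CategoryTheory.Limits AlgebraicGeometry IsLocalRing P025H641 P025H855
  P025H492 Vale.Agent.P019P
open scoped nonZeroDivisors

namespace Vale.Agent.P025Z

universe u

section alg

variable {k A B C : Type u} [CommRing k] [CommRing A] [CommRing B] [CommRing C] [Algebra k A]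
  [Algebra k B] [Algebra k C]

/-- the map on differentials of an algebra homomorphism -/
noncomputable def formA (φ : A →ₐ[k] B) : Ω[A⁄k] →ₗ[k] Ω[B⁄k] :=
  formMap φ.toRingHom φ.comp_algebraMap

theorem formMap_smul_D (φ : A →ₐ[k] B) (a b : A) :
    formA φ (a • KaehlerDifferential.D k A b) = φ a • KaehlerDifferential.D k B (φ b) := by
  letI := φ.toRingHom.toAlgebra
  haveI : IsScalarTower k A B := .of_algebraMap_eq fun c => (φ.commutes c).symm
  change KaehlerDifferential.map k k A B _ = _
  rw [map_smul, KaehlerDifferential.map_D]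
  exact (algebraMap_smul B a _).symm

theorem form_induction {P : Ω[A⁄k] → Prop} (h0 : P 0)
    (h1 : ∀ a b : A, P (a • KaehlerDifferential.D k A b)) (h2 : ∀ x y, P x → P y → P (x + y))
    (ω : Ω[A⁄k]) : P ω := by
  have h : ω ∈ Submodule.span A (Set.range (KaehlerDifferential.D k A)) := by
    rw [KaehlerDifferential.span_range_derivation]; trivial
  have key : ∀ a : A, P (a • ω) := by
    induction h using Submodule.span_induction with
    | mem x hx =>
      obtain ⟨b, rfl⟩ := hx
      exact fun a => h1 a b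
    | zero => exact fun a => by rwa [smul_zero]
    | add x y _ _ hx hy => exact fun a => by rw [smul_add]; exact h2 _ _ (hx a) (hy a)
    | smul c x _ hx => exact fun a => by rw [smul_smul]; exact hx _
  simpa using key 1

theorem formMap_comp (φ : A →ₐ[k] B) (ψ : B →ₐ[k] C) (χ : A →ₐ[k] C) (h : ∀ a, ψ (φ a) = χ a)
    (ω : Ω[A⁄k]) : formA ψ (formA φ ω) = formA χ ω := by
  induction ω using form_induction with
  | h0 => rw [map_zero, map_zero, map_zero]
  | h1 a b => rw [formMap_smul_D, formMap_smul_D, formMap_smul_D, h, h]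
  | h2 x y hx hy => rw [map_add, map_add, map_add, hx, hy]

end alg

section ff

variable {k K : Type u} [Field k] [Field K] [Algebra k K]

/-- the differentials that are regular at `V` -/
noncomputable def Reg (k : Type u) [Field k] [Algebra k K] (V : ValuationSubring K) :
    AddSubmonoid Ω[K⁄k] :=
  AddSubmonoid.closure {ω | ∃ a ∈ V, ∃ b ∈ V, ω = a • KaehlerDifferential.D k K b}

theorem gen_le_genus {F L : Type u} [Field F] [Field L] [Algebra F L] [CFF F L] :
    (gen F L : ℕ∞) ≤ P025H855.genus F L := by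
  obtain ⟨D, hD⟩ := exists_dg_eq F L (dg (can F L) + 1)
  have h1 := RR_large (D := D) (by omega)
  refine le_iSup_of_le D (le_of_eq ?_)
  have h2 : degD (F := F) (L := L) D = dg D := rfl
  rw [h2, rrSpace_eq, h1]
  congr 1
  omega

theorem two_le_of_forms {c G : Type u} [Field c] [Field G] [Algebra c G] [CFF c G] [CharZero c]
    [Algebra k G] [Algebra K G] [IsScalarTower k K G] [Algebra k c] [IsScalarTower k c G]
    [Algebra.IsAlgebraic k c] (hconst : ∀ x : K, _root_.IsIntegral k x → ∃ d, algebraMap k K d = x)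
    {t' : K} (ht' : Transcendental k t') {t : K}
    (ht : ∀ ω : Ω[K⁄k], ∃ z : K, ω = z • KaehlerDifferential.D k K t) {ω₁ ω₂ : Ω[K⁄k]}
    (h1 : ω₁ ≠ 0) (h2 : ∀ a : k, a • ω₁ ≠ ω₂)
    (hreg : ∀ V : ValuationSubring K, (∀ a, algebraMap k K a ∈ V) → ω₁ ∈ Reg k V ∧ ω₂ ∈ Reg k V) :
    2 ≤ gen c G := by
  obtain ⟨x, hx, hfin⟩ := CFF.ex (k := c) (F := G)
  obtain ⟨D, hD1⟩ := P025H133.exists_der x hx
  have hD : D ≠ 0 := fun h => by rw [h] at hD1; exact zero_ne_one hD1
  let δ : Derivation k K G := (D.restrictScalars k).compAlgebraMap K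
  let l := δ.liftKaehlerDifferential
  have hl : ∀ a b : K, l (a • KaehlerDifferential.D k K b) =
      algebraMap K G a * D (algebraMap K G b) := fun a b => by
    rw [map_smul, Derivation.liftKaehlerDifferential_comp_D, Algebra.smul_def]
    rfl
  have halg : ∀ (z : K) (a : c), algebraMap K G z = algebraMap c G a → IsAlgebraic k z := by
    intro z a h
    have h3 : IsAlgebraic k (algebraMap c G a) :=
      (Algebra.IsAlgebraic.isAlgebraic (R := k) a).algebraMap
    rw [← h] at h3
    exact (isAlgebraic_algebraMap_iff (algebraMap K G).injective).1 h3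
  have hDt : D (algebraMap K G t) ≠ 0 := by
    intro h
    obtain ⟨z, hz⟩ := ht (KaehlerDifferential.D k K t')
    have h3 := hl 1 t'
    rw [one_smul, hz, hl, h, mul_zero, map_one, one_mul] at h3
    exact der_ne_zero hD (fun a ha => ht' (halg _ a ha)) h3.symm
  have hmem : ∀ ω, (∀ V : ValuationSubring K, (∀ a, algebraMap k K a ∈ V) → ω ∈ Reg k V) →
      l ω ∈ LL c (-dvD D) := by
    intro ω hω
    rw [mem_LL_iff]
    intro P
    rw [Finsupp.neg_apply, neg_neg, dvD_apply hD]
    have h3 := hω (P.1.comap (algebraMap K G)) fun a => by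
      rw [ValuationSubring.mem_comap, ← IsScalarTower.algebraMap_apply,
        IsScalarTower.algebraMap_apply k c G]
      exact P.2.1 _
    clear hω
    induction h3 using AddSubmonoid.closure_induction with
    | mem y hy =>
      obtain ⟨a, ha, b, hb, rfl⟩ := hy
      rw [hl, ← zero_add (ordD D P)]
      refine mul_mem_Mge ((mem_iff_ord P _).1 ha) ?_
      rcases (mem_iff_ord P _).1 hb with h | h
      · rw [show algebraMap K G b = 0 from h, map_zero]
        exact zero_mem _
      · exact D_mem hD h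
    | zero => rw [map_zero]; exact zero_mem _
    | add y z _ _ hy hz => rw [map_add]; exact add_mem hy hz
  obtain ⟨z₁, rfl⟩ := ht ω₁
  obtain ⟨z₂, rfl⟩ := ht ω₂
  have hz₁ : z₁ ≠ 0 := fun h => h1 (by rw [h, zero_smul])
  have hz₁' : algebraMap K G z₁ ≠ 0 := (map_ne_zero _).2 hz₁
  let v₁ : LL c (-dvD D) := ⟨_, hmem _ fun V hV => (hreg V hV).1⟩
  let v₂ : LL c (-dvD D) := ⟨_, hmem _ fun V hV => (hreg V hV).2⟩
  have hli : LinearIndependent c ![v₁, v₂] := by
    rw [LinearIndependent.pair_iff' fun h => mul_ne_zero hz₁' hDt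
      ((hl _ _).symm.trans (congrArg Subtype.val h))]
    intro a ha
    have h3 : a • l (z₁ • KaehlerDifferential.D k K t) = l (z₂ • KaehlerDifferential.D k K t) :=
      congrArg Subtype.val ha
    rw [hl, hl, Algebra.smul_def, ← mul_assoc, mul_left_inj' hDt] at h3
    obtain ⟨d, hd⟩ := hconst (z₂ / z₁)
      (halg _ a (by rw [map_div₀, ← h3, mul_div_cancel_right₀ _ hz₁'])).isIntegral
    refine h2 d ?_
    rw [← algebraMap_smul K d, smul_smul, hd, div_mul_cancel₀ _ hz₁]
  have h3 := hli.fintype_card_le_finrank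
  rw [Fintype.card_fin] at h3
  by_contra hg
  obtain ⟨P⟩ := nonempty_Plk c G
  have h4 := l_sub_le (k := c) (D := -dvD D - Finsupp.single P 1) (E := -dvD D)
    (sub_le_self _ (Finsupp.single_nonneg.2 zero_le_one))
  have h5 := dg_dvD hD
  rw [l_eq_zero (D := -dvD D - Finsupp.single P 1) (by rw [map_sub, map_neg, dg_sgl]; omega),
    map_sub, dg_sgl] at h4
  omega

end ff

variable {k : Type u} [Field k] {X : Scheme.{u}} (f : X ⟶ Spec (.of k)) [IsIntegral X]
  [SmoothOfRelativeDimension 1 f]

theorem exists_gen : ∃ t : KX f, ∀ ω : Ω[KX f⁄k], ∃ z : KX f,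
    ω = z • KaehlerDifferential.D k (KX f) t := by
  obtain ⟨U, hx, g, het⟩ := exists_coord f (genericPoint X)
  have := fn_domain f U hx
  let _ : Algebra (Polynomial k) (Fn f U) := g.toRingHom.toAlgebra
  have : Algebra.Etale (Polynomial k) (Fn f U) := het
  let _ := (fnK f U hx).toRingHom.toAlgebra
  have := fnK_frac f U hx
  let G := (fnK f U hx).comp g
  let _ : Algebra (Polynomial k) (KX f) := G.toRingHom.toAlgebra
  have : IsScalarTower (Polynomial k) (Fn f U) (KX f) := IsScalarTower.of_algebraMap_eq' rfl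
  have : IsScalarTower k (Polynomial k) (KX f) :=
    IsScalarTower.of_algebraMap_eq fun c => (G.commutes c).symm
  have : Algebra.FormallyUnramified (Fn f U) (KX f) :=
    Algebra.FormallyUnramified.of_isLocalization (nonZeroDivisors (Fn f U))
  have : Algebra.FormallyUnramified (Polynomial k) (KX f) :=
    Algebra.FormallyUnramified.comp (Polynomial k) (Fn f U) (KX f)
  refine ⟨G Polynomial.X, fun ω => ?_⟩
  obtain ⟨v, rfl⟩ : ω ∈ LinearMap.range
      (KaehlerDifferential.mapBaseChange k (Polynomial k) (KX f)) := by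
    rw [KaehlerDifferential.range_mapBaseChange]
    exact Subsingleton.elim _ _
  induction v with
  | zero => exact ⟨0, by rw [map_zero, zero_smul]⟩
  | tmul z y =>
    obtain ⟨P, rfl⟩ := (KaehlerDifferential.polynomialEquiv k).symm.surjective y
    refine ⟨z * G P, ?_⟩
    rw [KaehlerDifferential.mapBaseChange_tmul, KaehlerDifferential.polynomialEquiv_symm, map_smul,
      KaehlerDifferential.map_D, ← smul_smul, ← algebraMap_smul (KX f) P]
    rfl
  | add a b ha hb =>
    obtain ⟨z, hz⟩ := ha
    obtain ⟨z', hz'⟩ := hb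
    exact ⟨z + z', by rw [map_add, hz, hz', add_smul]⟩

theorem formMap_inj (U : X.affineOpens) (hU : genericPoint X ∈ U.1) {ω : Ω[Fn f U⁄k]}
    (h : formA (fnK f U hU) ω = 0) : ω = 0 := by
  have := fn_domain f U hU
  have hs : Smooth f := SmoothOfRelativeDimension.smooth 1 f
  have h1 : (algebraMap k (Fn f U)).Smooth :=
    (HasRingHomProperty.Spec_iff (P := @Smooth) (φ := CommRingCat.ofHom (algebraMap k (Fn f U)))).1
      (by rw [← fromSpec_comp]; infer_instance)
  have h2 : Algebra.Smooth k (Fn f U) := RingHom.smooth_algebraMap.1 h1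
  letI := (fnK f U hU).toRingHom.toAlgebra
  have := fnK_frac f U hU
  haveI : IsScalarTower k (Fn f U) (KX f) :=
    .of_algebraMap_eq fun c => ((fnK f U hU).commutes c).symm
  obtain ⟨s, hs⟩ := (IsLocalizedModule.eq_zero_iff (Fn f U)⁰
    (KaehlerDifferential.map k k (Fn f U) (KX f))).1 h
  exact (smul_eq_zero.1 hs).resolve_left (nonZeroDivisors.ne_zero s.2)

/-- the restriction as an algebra homomorphism -/
noncomputable def resA {U V : X.affineOpens} (h : V.1 ≤ U.1) : Fn f U →ₐ[k] Fn f V :=
  ⟨Fn.res f h, fun c => DFunLike.congr_fun (Fn.res_const f h) c⟩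

/-- the global one forms -/
noncomputable abbrev OneForms : Submodule k (∀ U : X.affineOpens, Ω[Fn f U⁄k]) :=
  Compat fun (_ _ : X.affineOpens) h => formA (resA f h)

omit [SmoothOfRelativeDimension 1 f] in
theorem form_indep {ω : ∀ U : X.affineOpens, Ω[Fn f U⁄k]} (hω : ω ∈ OneForms f)
    (U V : X.affineOpens) (hU : genericPoint X ∈ U.1) (hV : genericPoint X ∈ V.1) :
    formA (fnK f U hU) (ω U) = formA (fnK f V hV) (ω V) := by
  obtain ⟨W, hW, hx, hle⟩ := exists_isAffineOpen_mem_and_subset
    (show genericPoint X ∈ U.1 ⊓ V.1 from ⟨hU, hV⟩)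
  have h1 : W ≤ U.1 := fun y hy => (hle hy).1
  have h2 : W ≤ V.1 := fun y hy => (hle hy).2
  rw [← formMap_comp (resA f (V := ⟨W, hW⟩) h1) (fnK f ⟨W, hW⟩ hx) _ (fnK_res f h1 hx),
    ← formMap_comp (resA f (V := ⟨W, hW⟩) h2) (fnK f ⟨W, hW⟩ hx) _ (fnK_res f h2 hx),
    hω U ⟨W, hW⟩ h1, hω V ⟨W, hW⟩ h2]

theorem hyperbolic [CharZero k] [IsProper f] [GeometricallyConnected f] (hg : 2 ≤ genus f) :
    IsHyperbolic k (KX f) := by
  refine ⟨funField f, constants f, ?_⟩
  have hcff := cff_geomField (funField f)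
  refine le_trans ?_ gen_le_genus
  obtain ⟨t', ht', -⟩ := exists_trans f
  obtain ⟨t, ht⟩ := exists_gen f
  obtain ⟨U, hU, -⟩ := exists_coord f (genericPoint X)
  obtain ⟨v, hv⟩ := (natCast_le_rank_iff (n := 2)).1
    (show (2 : Cardinal.{u}) ≤ Module.rank k (OneForms f) from hg)
  let μ : OneForms f →ₗ[k] Ω[KX f⁄k] :=
    (formA (fnK f U hU)).comp ((LinearMap.proj U).comp (OneForms f).subtype)
  have hμ : LinearMap.ker μ = ⊥ := by
    refine LinearMap.ker_eq_bot'.2 fun ω hω => Subtype.ext (funext fun V => ?_)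
    by_cases hV : genericPoint X ∈ V.1
    · exact formMap_inj f V hV ((form_indep f ω.2 V U hV hU).trans hω)
    · have h1 : V.1 = ⊥ := eq_bot_iff.2 fun x hx => hV (gen_mem hx)
      have h2 : Subsingleton (Fn f V) := by
        change Subsingleton Γ(X, V.1)
        rw [h1]; infer_instance
      have := Module.subsingleton (Fn f V) Ω[Fn f V⁄k]
      exact Subsingleton.elim _ _
  have hreg : ∀ (ω : OneForms f) (V : ValuationSubring (KX f)),
      (∀ a, algebraMap k (KX f) a ∈ V) → μ ω ∈ Reg k V := by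
    intro ω V hV
    obtain ⟨w, hw⟩ := exists_centre f V hV
    obtain ⟨W, hx, -⟩ := exists_coord f (w (closedPoint V))
    have h1 : ∀ a, fnK f W (gen_mem hx) a ∈ V := fun a =>
      (vs_centre f V hw).le ⟨_, toK_germ f W hx a⟩
    have h2 : μ ω = formA (fnK f W (gen_mem hx)) (ω.1 W) := form_indep f ω.2 U W hU _
    rw [h2]
    induction ω.1 W using form_induction with
    | h0 => rw [map_zero]; exact zero_mem _
    | h1 a b => exact AddSubmonoid.subset_closure ⟨_, h1 a, _, h1 b, formMap_smul_D _ a b⟩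
    | h2 x y hx hy => rw [map_add]; exact add_mem hx hy
  have hv' : LinearIndependent k ![μ (v 0), μ (v 1)] := by
    have h1 : ![μ (v 0), μ (v 1)] = μ ∘ v := by
      ext i
      fin_cases i <;> rfl
    rw [h1]
    exact hv.map' μ hμ
  have h0 : μ (v 0) ≠ 0 := hv'.ne_zero 0
  letI : Algebra (KX f) (geomField k (KX f)) := (toGeom k (KX f)).toAlgebra
  have : IsScalarTower k (KX f) (geomField k (KX f)) :=
    IsScalarTower.of_algebraMap_eq fun _ => rfl
  exact_mod_cast two_le_of_forms (c := constClosure k (KX f)) (G := geomField k (KX f))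
    (constants f) ht' ht h0 ((LinearIndependent.pair_iff' h0).1 hv')
    fun V hV => ⟨hreg _ V hV, hreg _ V hV⟩

end Vale.Agent.P025Z
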