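import Vale.Agent.P025Z.Cover

/-! # Paths from the generic point to points with values in the algebraic closure of `k` -/

set_option backward.isDefEq.respectTransparency false
set_option linter.style.haveILetI false

open CategoryTheory CategoryTheory.Limits AlgebraicGeometry IsLocalRing P025H641

namespace Vale.Agent.P025Z

universe u

theorem exists_ext {R S F : Type u} [CommRing R] [CommRing S] [Algebra R S]
    [Algebra.IsIntegral R S] [Field F] [IsAlgClosed F] (ρ : R →+* F) (Q : Ideal S) [Q.IsPrime]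
    (hQ : Q.comap (algebraMap R S) = RingHom.ker ρ) :
    ∃ r : S →+* F, r.comp (algebraMap R S) = ρ ∧ ∀ z, r z = 0 ↔ z ∈ Q := by
  have hP := RingHom.ker_isPrime ρ
  have hlo : Q.LiesOver (RingHom.ker ρ) := ⟨hQ.symm⟩
  letI : Algebra (R ⧸ RingHom.ker ρ) F := (RingHom.kerLift ρ).toAlgebra
  have : FaithfulSMul (R ⧸ RingHom.ker ρ) F :=
    (faithfulSMul_iff_algebraMap_injective _ _).2 (RingHom.kerLift_injective ρ)
  have : FaithfulSMul (R ⧸ RingHom.ker ρ) (S ⧸ Q) := inferInstance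
  have : Module.IsTorsionFree (R ⧸ RingHom.ker ρ) (S ⧸ Q) :=
    Module.isTorsionFree_iff_algebraMap_injective.2 (FaithfulSMul.algebraMap_injective _ _)
  let l : (S ⧸ Q) →ₐ[R ⧸ RingHom.ker ρ] F := IsAlgClosed.lift
  have hl : ∀ z, l z = 0 → z = 0 := by
    intro z hz
    have h1 : RingHom.ker (l : (S ⧸ Q) →+* F) = ⊥ := by
      refine Ideal.eq_bot_of_comap_eq_bot (R := R ⧸ RingHom.ker ρ) (eq_bot_iff.2 fun c hc => ?_)
      have h2 : l (algebraMap _ _ c) = 0 := hc
      rw [l.commutes] at h2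
      exact RingHom.kerLift_injective ρ (h2.trans (map_zero _).symm)
    have h3 : z ∈ RingHom.ker (l : (S ⧸ Q) →+* F) := hz
    rwa [h1] at h3
  refine ⟨l.toRingHom.comp (Ideal.Quotient.mk Q), RingHom.ext fun c => ?_, fun z => ⟨fun h => ?_,
    fun h => ?_⟩⟩
  · exact l.commutes (Ideal.Quotient.mk _ c)
  · exact Ideal.Quotient.eq_zero_iff_mem.1 (hl _ h)
  · rw [RingHom.comp_apply, Ideal.Quotient.eq_zero_iff_mem.2 h, map_zero]

variable {k : Type u} [Field k] {X : Scheme.{u}} (f : X ⟶ Spec (.of k))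

section lk

variable {Ω : Type u} [Field Ω] {η : Spec (.of Ω) ⟶ X} {ι : AlgebraicClosure k →+* Ω}
  {z z' : Spec (.of (AlgebraicClosure k)) ⟶ X}

/-- `Φ` is a specialisation path that identifies the constants through `ι` -/
def Lk (ι : AlgebraicClosure k →+* Ω) (Φ : Path η z) : Prop :=
  ∃ (S : Type u) (_ : CommRing S) (i : S →+* Ω) (r : S →+* AlgebraicClosure k)
    (ι' : AlgebraicClosure k →+* S) (w : Spec (.of S) ⟶ X), sp i ≫ w = η ∧ sp r ≫ w = z ∧
      i.comp ι' = ι ∧ r.comp ι' = RingHom.id _ ∧ w ≫ f = sp ι' ≫ geo k ∧ Good (sp i) ∧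
        Good (sp r) ∧ IsLink (sp i) (sp r) w Φ

variable {f} {Φ : Path η z}

theorem Lk.comp (H : Lk f ι Φ) : η ≫ f = sp ι ≫ geo k := by
  obtain ⟨S, _, i, r, ι', w, h1, -, h3, -, h5, -⟩ := H
  rw [← h1, Category.assoc, h5, sp_comp_assoc, h3]

theorem Lk.ap_push (H : Lk f ι Φ) {t : Spec (.of Ω) ⟶ Spec (.of k)} (ht : η ≫ f = t)
    (hz : z ≫ f = geo k) {C : FEt (Spec (.of k))} (v : Fib (geo k) C) (v' : Fib t C)
    (hv : v'.pt = sp ι ≫ v.pt) : ap (Φ.push f ht hz) v' = v := by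
  obtain ⟨S, _, i, r, ι', w, h1, -, h3, h4, h5, -, -, h8⟩ := H
  refine Fib.ext ?_
  rw [h8.push h1 f ht hz h5 C (sp ι' ≫ v.pt) v' (by rw [Category.assoc, v.comm])
    (by rw [sp_comp_assoc, h3, hv]), sp_comp_assoc, h4, sp_id, Category.id_comp]

theorem Lk.ap_symm (H : Lk f ι Φ) {t : Spec (.of Ω) ⟶ Spec (.of k)} (ht : η ≫ f = t)
    (hz : z ≫ f = geo k) {C : FEt (Spec (.of k))} (v : Fib (geo k) C) :
    (ap (Φ.push f ht hz).symm v).pt = sp ι ≫ v.pt := by
  have h1 := H.ap_push ht hz v ⟨sp ι ≫ v.pt, by rw [Category.assoc, v.comm, ← H.comp, ht]⟩ rfl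
  conv_lhs => rw [← h1, ap_symm_ap]

theorem Lk.push_eq {Φ' : Path η z'} (H : Lk f ι Φ) (H' : Lk f ι Φ') (hz : z ≫ f = geo k)
    (hz' : z' ≫ f = geo k) : Path.push f hz hz' (Φ.symm ≪≫ Φ') = Iso.refl _ := by
  rw [Path.push_trans f hz rfl hz', push_symm]
  refine path_ext fun C v => ?_
  rw [ap_trans, H'.ap_push rfl hz' v _ (H.ap_symm rfl hz v), ap_refl]

theorem Lk.map_twist (H : Lk f ι Φ) (hz : z ≫ f = geo k) (g : Ω ≃+* Ω)
    (hg : sp (g : Ω →+* Ω) ≫ η = η) (τ : GalK k) (h : ∀ t, g (ι t) = ι (τ t)) :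
    Pi1.map f hz (Φ.conjAut (twist g hg)) = gal k τ := by
  rw [map_conjAut f rfl hz, P025Z.map_twist f rfl g hg (by rw [← Category.assoc, hg])]
  refine path_ext fun C v => congrArg Fib.pt ?_
  rw [ap_conjAut]
  refine H.ap_push rfl hz _ _ ?_
  rw [ap_twist, H.ap_symm, gal_eq_act, ap_act, sp_comp_assoc, sp_comp_assoc]
  exact congrArg (fun m => sp m ≫ v.pt) (RingHom.ext h)

theorem Lk.exists_incl {x : BasePt f} {Φ : Path η x.1} (H : Lk f ι Φ) (g : Ω ≃+* Ω)
    (hg : sp (g : Ω →+* Ω) ≫ η = η) (h : ∀ t, g (ι t) = ι t) :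
    ∃ δ, x.incl δ = Φ.conjAut (twist g hg) := by
  have hc := H.comp
  obtain ⟨S, _, i, r, ι', w, h1, h2, h3, h4, h5, h6, h7, h8⟩ := H
  let η' : Spec (.of Ω) ⟶ pullback f (geo k) := pullback.lift η (sp ι) hc
  let w' : Spec (.of S) ⟶ pullback f (geo k) := pullback.lift w (sp ι') h5
  have e1 : sp i ≫ w' = η' := pullback.hom_ext
    (by rw [Category.assoc, pullback.lift_fst, pullback.lift_fst, h1])
    (by rw [Category.assoc, pullback.lift_snd, pullback.lift_snd, sp_comp, h3])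
  have e2 : sp r ≫ w' = x.up := pullback.hom_ext
    (by rw [Category.assoc, pullback.lift_fst, BasePt.up, pullback.lift_fst, h2])
    (by rw [Category.assoc, pullback.lift_snd, BasePt.up, pullback.lift_snd, sp_comp, h4, sp_id])
  obtain ⟨Φ', hΦ'⟩ := exists_link h6 h7 w' e1 e2
  have e3 : η' ≫ pullback.fst f (geo k) = η := pullback.lift_fst _ _ _
  have hg' : sp (g : Ω →+* Ω) ≫ η' = η' := pullback.hom_ext
    (by rw [Category.assoc, e3, hg])
    (by
      rw [Category.assoc, pullback.lift_snd, sp_comp]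
      exact congrArg sp (RingHom.ext h))
  refine ⟨Φ'.conjAut (twist g hg'), ?_⟩
  rw [BasePt.incl, map_conjAut _ e3, P025Z.map_twist _ e3 g hg' hg,
    (hΦ'.push e1 _ e3 _ (pullback.lift_fst _ _ _)).unique h6 h1 h8]

theorem map_incl (x : BasePt f) (δ : Pi1 x.up) : Pi1.map f x.2 (x.incl δ) = 1 := by
  have e : x.up ≫ pullback.fst f (geo k) = x.1 := pullback.lift_fst _ _ _
  have e' : x.up ≫ pullback.snd f (geo k) = 𝟙 _ := pullback.lift_snd _ _ _
  have h : x.up ≫ pullback.fst f (geo k) ≫ f = geo k := by rw [← Category.assoc, e, x.2]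
  rw [BasePt.incl, map_apply, map_apply, push_push _ _ _ _ _ _ _ rfl h h]
  refine path_ext fun C v => ?_
  let T : FEt (pullback f (geo k)) := ⟨_, 𝟙 _⟩
  let y : Fib x.up T := ⟨x.up, Category.comp_id _⟩
  have h1 : (ap δ y).pt = x.up := (Category.comp_id _).symm.trans (ap δ y).comm
  rw [P025Z.ap_push _ h h δ (C := T) (pullback.snd f (geo k) ≫ v.pt)
    (by rw [Category.assoc, v.comm, Category.id_comp, pullback.condition]) y v
    (by rw [← Category.assoc, e', Category.id_comp]), h1, ← Category.assoc, e', Category.id_comp,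
    ap_one]

end lk

variable [IsIntegral X]

section core

variable {f} {η : Spec (.of (AlgebraicClosure (KX f))) ⟶ X}
  (h : sp (algebraMap (KX f) (AlgebraicClosure (KX f))) ≫ eta0 f = η)
  {V : ValuationSubring (KX f)} (hk : ∀ c, algebraMap k (KX f) c ∈ V)

/-- the integral closure of `V` in the algebraic closure -/
noncomputable abbrev SV (V : ValuationSubring (KX f)) : Type u :=
  integralClosure V (AlgebraicClosure (KX f))

/-- the constants in the integral closure of `V` -/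
noncomputable def cS (ι : AlgebraicClosure k →ₐ[k] AlgebraicClosure (KX f)) :
    AlgebraicClosure k →+* SV V :=
  ι.toRingHom.codRestrict (integralClosure V (AlgebraicClosure (KX f))).toSubring fun t => by
    letI : Algebra k V := ((algebraMap k (KX f)).codRestrict V.toSubring hk).toAlgebra
    have : IsScalarTower k V (AlgebraicClosure (KX f)) :=
      IsScalarTower.of_algebraMap_eq fun _ => rfl
    exact ((Algebra.IsIntegral.isIntegral (R := k) t).map ι).tower_top

theorem good_SV {κ : Type u} [Field κ] (r : SV V →+* κ) : Good (sp r) := by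
  have : Algebra.IsAlgebraic V (AlgebraicClosure (KX f)) :=
    (IsFractionRing.comap_isAlgebraic_iff (K := KX f)).2 inferInstance
  have : IsFractionRing (SV V) (AlgebraicClosure (KX f)) :=
    integralClosure.isFractionRing_of_algebraic fun x hx => by
      rw [IsScalarTower.algebraMap_apply V (KX f), map_eq_zero] at hx
      exact Subtype.ext hx
  have : IsIntegrallyClosed (SV V) :=
    (isIntegrallyClosed_iff (AlgebraicClosure (KX f))).2 fun {x} hx =>
      ⟨⟨x, isIntegral_trans (R := V) _ hx⟩, rfl⟩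
  exact good_spec (AlgebraicClosure (KX f)) r

variable {w : Spec (.of V) ⟶ X} (hw : sp (algebraMap V (KX f)) ≫ w = eta0 f)

include h hw in
theorem SV_eta : sp (algebraMap (SV V) (AlgebraicClosure (KX f))) ≫
    sp (algebraMap V (SV V)) ≫ w = η := by
  rw [sp_comp_assoc, ← IsScalarTower.algebraMap_eq, IsScalarTower.algebraMap_eq V (KX f),
    ← sp_comp_assoc, hw, h]

include hw in
theorem SV_comp (ι : AlgebraicClosure k →ₐ[k] AlgebraicClosure (KX f)) :
    (sp (algebraMap V (SV V)) ≫ w) ≫ f = sp (cS hk ι) ≫ geo k := by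
  obtain ⟨φ, hφ⟩ := sp_surj (w ≫ f)
  have h1 : (algebraMap V (KX f)).comp φ = algebraMap k (KX f) :=
    sp_inj (by rw [← sp_comp, hφ, reassoc_of% hw, eta0_comp])
  rw [Category.assoc, ← hφ, sp_comp, geo, sp_comp]
  refine congrArg sp (RingHom.ext fun c => Subtype.ext ?_)
  refine Eq.trans ?_ (ι.commutes c).symm
  exact congrArg (fun m : k →+* KX f => algebraMap (KX f) (AlgebraicClosure (KX f)) (m c)) h1

include h hw in
theorem lk_core (ι : AlgebraicClosure k →ₐ[k] AlgebraicClosure (KX f))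
    (r : SV V →+* AlgebraicClosure k) (hr : r.comp (cS hk ι) = RingHom.id _)
    {z : Spec (.of (AlgebraicClosure k)) ⟶ X} (hz : sp r ≫ sp (algebraMap V (SV V)) ≫ w = z) :
    ∃ Φ : Path η z, IsLink (sp (algebraMap (SV V) (AlgebraicClosure (KX f)))) (sp r)
      (sp (algebraMap V (SV V)) ≫ w) Φ ∧ Lk f ι.toRingHom Φ := by
  obtain ⟨Φ, hΦ⟩ := exists_link (good_SV _) (good_SV r) _ (SV_eta h hw) hz
  exact ⟨Φ, hΦ, SV V, inferInstance, _, r, cS hk ι, _, SV_eta h hw, hz, rfl, hr,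
    SV_comp hk hw ι, good_SV _, good_SV r, hΦ⟩

include hw in
theorem exists_aut (ι : AlgebraicClosure k →ₐ[k] AlgebraicClosure (KX f))
    (r : SV V →+* AlgebraicClosure k)
    (hz : (sp r ≫ sp (algebraMap V (SV V)) ≫ w) ≫ f = geo k) :
    ∃ τ : GalK k, ∀ t, r (cS hk ι t) = τ t := by
  rw [Category.assoc, SV_comp hk hw ι, geo, sp_comp, sp_comp] at hz
  let τ : AlgebraicClosure k →ₐ[k] AlgebraicClosure k :=
    { r.comp (cS hk ι) with
      commutes' := fun c => congrArg (fun m : k →+* AlgebraicClosure k => m c) (sp_inj hz) }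
  exact ⟨AlgEquiv.ofBijective τ (Algebra.IsAlgebraic.algHom_bijective τ), fun _ => rfl⟩

end core

variable [SmoothOfRelativeDimension 1 f]

theorem exists_vs_res {F : Type u} [Field F] (z : Spec (.of F) ⟶ X) :
    ∃ (w : Spec (.of (vs f (z (closedPoint F)))) ⟶ X) (ρ : vs f (z (closedPoint F)) →+* F),
      sp (algebraMap _ (KX f)) ≫ w = eta0 f ∧ sp ρ ≫ w = z ∧ IsLocalHom ρ := by
  let y := z (closedPoint F)
  let c : X.presheaf.stalk y →+* vs f y :=
    (toK f y).codRestrict (vs f y).toSubring fun a => ⟨a, rfl⟩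
  let e := RingEquiv.ofBijective c ⟨fun a b h => toK_inj f y (congrArg Subtype.val h), by
    rintro ⟨_, a, rfl⟩
    exact ⟨a, rfl⟩⟩
  let ρ : X.presheaf.stalk y →+* F := (Scheme.stalkClosedPointTo z).hom
  have hρ : IsLocalHom ρ := Scheme.isLocalHom_stalkClosedPointTo' z
  have h3 : sp ρ ≫ X.fromSpecStalk y = z := Scheme.Spec_stalkClosedPointTo_fromSpecStalk z
  refine ⟨sp c ≫ X.fromSpecStalk y, ρ.comp e.symm.toRingHom, ?_, ?_, ⟨fun a ha => ?_⟩⟩
  · rw [sp_comp_assoc]
    exact toK_spec f y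
  · have h4 : (ρ.comp e.symm.toRingHom).comp c = ρ :=
      RingHom.ext fun a => congrArg ρ (e.symm_apply_apply a)
    rw [sp_comp_assoc, h4]
    exact h3
  · exact (isUnit_map_iff e.symm a).1 (isUnit_of_map_unit ρ _ ha)

variable {f} {η : Spec (.of (AlgebraicClosure (KX f))) ⟶ X}
  (h : sp (algebraMap (KX f) (AlgebraicClosure (KX f))) ≫ eta0 f = η)

include h in
theorem exists_lk_base (x : BasePt f) : ∃ (ι : AlgebraicClosure k →ₐ[k] AlgebraicClosure (KX f))
    (Φ : Path η x.1), Lk f ι.toRingHom Φ := by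
  obtain ⟨w, ρ, hw, hρ, -⟩ := exists_vs_res f x.1
  have hk := const_mem_vs f (x.1 (closedPoint _))
  have hP := RingHom.ker_isPrime ρ
  obtain ⟨Q, hQ, hQ'⟩ := Ideal.exists_ideal_over_prime_of_isIntegral_of_isDomain
    (S := SV (vs f (x.1 (closedPoint _)))) (RingHom.ker ρ) fun a ha => by
      have h1 : algebraMap (KX f) (AlgebraicClosure (KX f)) a = 0 := congrArg Subtype.val ha
      rw [show a = 0 from Subtype.ext ((map_eq_zero _).1 h1)]
      exact zero_mem _
  obtain ⟨r, hr, -⟩ := exists_ext ρ Q hQ'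
  have hz : sp r ≫ sp (algebraMap _ _) ≫ w = x.1 := by rw [sp_comp_assoc, hr, hρ]
  obtain ⟨τ, hτ⟩ := exists_aut hk hw IsAlgClosed.lift r (by rw [hz, x.2])
  obtain ⟨Φ, -, hΦ⟩ := lk_core h hk hw (IsAlgClosed.lift.comp τ.symm.toAlgHom) r
    (RingHom.ext fun t => (hτ (τ.symm t)).trans (τ.apply_symm_apply t)) hz
  exact ⟨_, Φ, hΦ⟩

theorem exists_lk_rat [CharZero k] [IsProper f] (a : RatPt f)
    (ι : AlgebraicClosure k →ₐ[k] AlgebraicClosure (KX f))
    (W : ValuationSubring (maxUnr k (KX f)))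
    (hW : W.comap (algebraMap (KX f) (maxUnr k (KX f))) = vs f a.pt) :
    ∃ Φ : Path η (geo k ≫ a.1), Lk f ι.toRingHom Φ ∧ ∀ (g : GalK (KX f)) (τ : GalK k),
      (∀ t, g (ι t) = ι (τ t)) → (∀ u ∈ W.nonunits, resM f g u ∈ W.nonunits) →
        Φ.conjAut (act h g) = Pi1.map a.1 rfl (gal k τ) := by
  have := charZero_KX f
  obtain ⟨w, ρ, hw, hρ, hloc⟩ : ∃ (w : Spec (.of (vs f a.pt)) ⟶ X) (ρ : vs f a.pt →+* k),
      sp (algebraMap _ (KX f)) ≫ w = eta0 f ∧ sp ρ ≫ w = a.1 ∧ IsLocalHom ρ := exists_vs_res f a.1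
  have hk := const_mem_vs f a.pt
  generalize vs f a.pt = V at *
  obtain ⟨W1, hW1⟩ := exists_val_extension (L := AlgebraicClosure (KX f)) W
  have hWW : ∀ u : maxUnr k (KX f), u ∈ W.nonunits ↔ (u : AlgebraicClosure (KX f)) ∈ W1.nonunits :=
    fun u => by
      rw [← hW1]
      exact (comap_isEquiv (F := maxUnr k (KX f)) W1).lt_one_iff_lt_one
  have hV1 : W1.comap (algebraMap (KX f) (AlgebraicClosure (KX f))) = V := by
    rw [← hW, ← hW1]
    rfl
  have hS : ∀ s : SV V, (s : AlgebraicClosure (KX f)) ∈ W1 := by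
    rintro ⟨s, P, hP, hs⟩
    let j : V →+* W1 := (algebraMap V (AlgebraicClosure (KX f))).codRestrict W1.toSubring
      fun v => hV1.ge v.2
    have h2 : _root_.IsIntegral W1 s := ⟨P.map j, hP.map j, by
      rw [Polynomial.eval₂_map]; exact hs⟩
    obtain ⟨v, hv⟩ := IsIntegrallyClosed.isIntegral_iff.1 h2
    exact hv ▸ v.2
  let c : SV V →+* W1 := (algebraMap (SV V) (AlgebraicClosure (KX f))).codRestrict W1.toSubring hS
  let Q : Ideal (SV V) := (maximalIdeal W1).comap c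
  have hQp : Q.IsPrime := Ideal.comap_isPrime _ _
  have hQ : ∀ s : SV V, s ∈ Q ↔ (s : AlgebraicClosure (KX f)) ∈ W1.nonunits := fun s =>
    W1.valuation_lt_one_iff (c s)
  obtain ⟨r0, hr0, hker⟩ := exists_ext ((algebraMap k (AlgebraicClosure k)).comp ρ) Q (by
    ext v
    rw [Ideal.mem_comap, hQ, RingHom.mem_ker, RingHom.comp_apply, map_eq_zero]
    have h1 : ρ v = 0 ↔ v ∈ maximalIdeal V := by
      rw [mem_maximalIdeal, mem_nonunits_iff, ← isUnit_map_iff ρ, isUnit_iff_ne_zero, not_not]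
    rw [h1, V.valuation_lt_one_iff]
    subst hV1
    exact (comap_isEquiv (F := KX f) W1).lt_one_iff_lt_one.symm)
  have hz0 : sp r0 ≫ sp (algebraMap V (SV V)) ≫ w = geo k ≫ a.1 := by
    rw [sp_comp_assoc, hr0, ← sp_comp_assoc, hρ]
    rfl
  obtain ⟨τ0, hτ0⟩ := exists_aut hk hw ι r0 (by rw [hz0, Category.assoc, a.2, Category.comp_id])
  let r : SV V →+* AlgebraicClosure k := (rh τ0.symm).comp r0
  have hr : ∀ t, r (cS hk ι t) = t := fun t =>
    (congrArg τ0.symm (hτ0 t)).trans (τ0.symm_apply_apply t)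
  have hker' : ∀ s, r s = 0 ↔ s ∈ Q := fun s => (map_eq_zero (rh τ0.symm)).trans (hker s)
  have hgeo : ∀ τ : GalK k, sp (rh τ) ≫ geo k = geo k := fun τ => by rw [geo, sp_comp, rh_comp]
  have hz : sp r ≫ sp (algebraMap V (SV V)) ≫ w = geo k ≫ a.1 := by
    rw [← sp_comp_assoc, hz0, reassoc_of% hgeo]
  have hrV : ∀ v : V, r (algebraMap V (SV V) v) = algebraMap k _ (ρ v) := fun v =>
    (congrArg τ0.symm (congrArg (fun m : V →+* AlgebraicClosure k => m v) hr0)).trans
      (τ0.symm.commutes _)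
  obtain ⟨Φ, hΦ, hL⟩ := lk_core h hk hw ι r (RingHom.ext hr) hz
  refine ⟨Φ, hL, fun g τ hg hst => path_ext fun C v => ?_⟩
  let gS : SV V →+* SV V := ((rh g).comp (algebraMap (SV V) _)).codRestrict
    (integralClosure V (AlgebraicClosure (KX f))).toSubring fun s =>
      s.2.map (g.toAlgHom.restrictScalars V)
  have hgS : gS.comp (algebraMap V (SV V)) = algebraMap V (SV V) :=
    RingHom.ext fun v => Subtype.ext (g.commutes v)
  let y := ap Φ.symm v
  obtain ⟨s, hs1, hs2⟩ := ((good_SV _).lift _ (SV_eta h hw) y).exists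
  obtain ⟨B, _, _, -, -, m, hm⟩ := exists_chart_alg w C
  obtain ⟨b, hb, rfl⟩ := chart_exists hm (algebraMap V (SV V)) s hs1
  have hv : v.pt = sp r ≫ sp b ≫ m := by
    rw [← hΦ C _ y hs1 hs2, ap_ap_symm]
  have hM : ∀ t, (b t : AlgebraicClosure (KX f)) ∈ maxUnr k (KX f) := by
    intro t
    refine (fld_unr f h y).le_maxUnr ?_
    rw [fld_eq h hm (b := (algebraMap (SV V) _).comp b)
      (by rw [RingHom.comp_assoc, hb, ← IsScalarTower.algebraMap_eq, ← IsScalarTower.algebraMap_eq])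
      (by rw [← sp_comp_assoc, hs2])]
    exact IntermediateField.subset_adjoin _ _ ⟨t, rfl⟩
  have key : (r.comp gS).comp b = ((rh τ).comp r).comp b := by
    refine RingHom.ext fun t => ?_
    have h1 : b t - cS hk ι (r (b t)) ∈ Q := by rw [← hker', map_sub, hr, sub_self]
    let u : maxUnr k (KX f) := ⟨(b t - cS hk ι (r (b t)) : SV V), sub_mem (hM t)
      (mem_maxUnr_of_const _ ((Algebra.IsIntegral.isIntegral (R := k) _).map ι))⟩
    have h2 := (hWW _).1 (hst u ((hWW u).2 ((hQ _).1 h1)))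
    rw [resM_apply] at h2
    have h3 := (hker' (gS (b t - cS hk ι (r (b t))))).2 ((hQ _).2 h2)
    have h4 : gS (cS hk ι (r (b t))) = cS hk ι (τ (r (b t))) := Subtype.ext (hg _)
    rw [map_sub, map_sub, h4, hr, sub_eq_zero] at h3
    exact h3
  rw [ap_conjAut, hΦ C (sp gS ≫ sp b ≫ m) _ (by rw [Category.assoc, hs1, sp_comp_assoc, hgS])
    (by
      rw [ap_act, ← hs2, sp_comp_assoc, sp_comp_assoc _ (rh g)]
      rfl),
    show gal k τ = twist τ.toRingEquiv (hgeo τ) from rfl,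
    map_twist a.1 rfl _ _ (by rw [← Category.assoc]; exact congrArg (· ≫ a.1) (hgeo τ)), ap_twist,
    hv, sp_comp_assoc, sp_comp_assoc, key, sp_comp_assoc, sp_comp_assoc]

end Vale.Agent.P025Z
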