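import Vale.Agent.P025Z.Defs

/-! # Paths: action on fibres, functoriality, specialisation paths -/

set_option backward.isDefEq.respectTransparency false
set_option linter.style.haveILetI false

open CategoryTheory CategoryTheory.Limits AlgebraicGeometry TensorProduct

namespace Vale.Agent.P025Z

universe u

section ap

variable {X X' : Scheme.{u}} {Ω Ω' Ω'' : Type u} [Field Ω] [Field Ω'] [Field Ω'']
  {x : Spec (.of Ω) ⟶ X} {x' : Spec (.of Ω') ⟶ X} {x'' : Spec (.of Ω'') ⟶ X}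

/-- A bijection of finite sets as an isomorphism in `FintypeCat`. -/
def isoOf {A B : Type u} [Finite A] [Finite B] (e : A ≃ B) : FintypeCat.of A ≅ FintypeCat.of B :=
  FintypeCat.equivEquivIso e

theorem Path.conj_eq (φ : Path x x') (γ : Pi1 x) : φ.conj γ = φ.conjAut γ :=
  (Iso.conjAut_apply φ γ).symm

/-- An automorphism `σ` of the field `Ω` that fixes `x` acts on the fibres by `y ↦ y ∘ Spec σ`. -/
noncomputable def twist (σ : Ω ≃+* Ω)
    (h : Spec.map (CommRingCat.ofHom (σ : Ω →+* Ω)) ≫ x = x) : Pi1 x :=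
  have h1 : Spec.map (CommRingCat.ofHom (σ : Ω →+* Ω)) ≫
      Spec.map (CommRingCat.ofHom (σ.symm : Ω →+* Ω)) = 𝟙 _ := by
    rw [← Spec.map_comp, ← CommRingCat.ofHom_comp, RingEquiv.comp_symm, CommRingCat.ofHom_id,
      Spec.map_id]
  have h2 : Spec.map (CommRingCat.ofHom (σ.symm : Ω →+* Ω)) ≫
      Spec.map (CommRingCat.ofHom (σ : Ω →+* Ω)) = 𝟙 _ := by
    rw [← Spec.map_comp, ← CommRingCat.ofHom_comp, RingEquiv.symm_comp, CommRingCat.ofHom_id,
      Spec.map_id]
  NatIso.ofComponents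
    (fun C => isoOf (A := Fib x C) (B := Fib x C)
      { toFun := fun y => ⟨Spec.map (CommRingCat.ofHom (σ : Ω →+* Ω)) ≫ y.pt, by
          rw [Category.assoc, y.comm, h]⟩
        invFun := fun y => ⟨Spec.map (CommRingCat.ofHom (σ.symm : Ω →+* Ω)) ≫ y.pt, by
          rw [Category.assoc, y.comm, ← h, reassoc_of% h2, h]⟩
        left_inv := fun y => Fib.ext (by simp only [reassoc_of% h2])
        right_inv := fun y => Fib.ext (by simp only [reassoc_of% h1]) })
    (fun _ => FintypeCat.hom_ext _ _ fun _ => Fib.ext (Category.assoc _ _ _).symm)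

theorem path_ext {φ ψ : Path x x'} (h : ∀ (C : FEt X) (y : Fib x C), (ap φ y).pt = (ap ψ y).pt) :
    φ = ψ :=
  Iso.ext (NatTrans.ext (funext fun C => FintypeCat.hom_ext _ _ fun y => Fib.ext (h C y)))

theorem ap_trans (φ : Path x x') (ψ : Path x' x'') {C : FEt X} (y : Fib x C) :
    ap (φ ≪≫ ψ) y = ap ψ (ap φ y) := rfl

theorem ap_refl {C : FEt X} (y : Fib x C) : ap (Iso.refl (fib x)) y = y := rfl

theorem ap_symm_ap (φ : Path x x') {C : FEt X} (y : Fib x C) : ap φ.symm (ap φ y) = y := by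
  rw [← ap_trans, Iso.self_symm_id, ap_refl]

theorem ap_ap_symm (φ : Path x x') {C : FEt X} (y : Fib x' C) : ap φ (ap φ.symm y) = y := by
  rw [← ap_trans, Iso.symm_self_id, ap_refl]

theorem ap_inj (φ : Path x x') {C : FEt X} {y y' : Fib x C} (h : ap φ y = ap φ y') : y = y' := by
  rw [← ap_symm_ap φ y, h, ap_symm_ap]

theorem ap_mul (γ δ : Pi1 x) {C : FEt X} (y : Fib x C) : ap (γ * δ) y = ap γ (ap δ y) := rfl

theorem ap_one {C : FEt X} (y : Fib x C) : ap (1 : Pi1 x) y = y := rfl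

theorem ap_conjAut (φ : Path x x') (γ : Pi1 x) {C : FEt X} (y : Fib x' C) :
    ap (φ.conjAut γ) y = ap φ (ap γ (ap φ.symm y)) := by
  rw [Iso.conjAut_apply]
  rfl

theorem ap_nat (φ : Path x x') {C D : FEt X} (m : C.Y ⟶ D.Y) (hm : m ≫ D.π = C.π) (y : Fib x C)
    (z : Fib x D) (h : z.pt = y.pt ≫ m) : (ap φ z).pt = (ap φ y).pt ≫ m := by
  have h1 : z = (fib x).map (FEt.Hom.mk m hm : C ⟶ D) y := Fib.ext h
  have h2 := ConcreteCategory.congr_hom (φ.hom.naturality (FEt.Hom.mk m hm : C ⟶ D)) y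
  rw [h1]
  exact congrArg Fib.pt h2

theorem ap_push (g : X ⟶ X') {z : Spec (.of Ω) ⟶ X'} {z' : Spec (.of Ω') ⟶ X'} (h : x ≫ g = z)
    (h' : x' ≫ g = z') (φ : Path x x') {C : FEt X} {D : FEt X'} (m : C.Y ⟶ D.Y)
    (hm : m ≫ D.π = C.π ≫ g) (y : Fib x C) (v : Fib z D) (hv : v.pt = y.pt ≫ m) :
    (ap (φ.push g h h') v).pt = (ap φ y).pt ≫ m := by
  have h1 : (ap (φ.push g h h') v).pt = (ap φ (C := D.pull g)
      ⟨pullback.lift v.pt x (v.comm.trans h.symm), pullback.lift_snd _ _ _⟩).pt ≫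
        pullback.fst D.π g := rfl
  rw [h1, ap_nat φ (C := C) (D := D.pull g) (pullback.lift m C.π hm) (pullback.lift_snd _ _ _) y,
    Category.assoc, pullback.lift_fst]
  refine pullback.hom_ext ?_ ?_
  · rw [pullback.lift_fst, Category.assoc, pullback.lift_fst, hv]
  · rw [pullback.lift_snd, Category.assoc, pullback.lift_snd, y.comm]

theorem Fib.up_fst (g : X ⟶ X') {z : Spec (.of Ω) ⟶ X'} (h : x ≫ g = z) {D : FEt X'}
    (v : Fib z D) : (v.up g h).pt ≫ pullback.fst D.π g = v.pt := pullback.lift_fst _ _ _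

theorem ap_push' (g : X ⟶ X') {z : Spec (.of Ω) ⟶ X'} {z' : Spec (.of Ω') ⟶ X'} (h : x ≫ g = z)
    (h' : x' ≫ g = z') (φ : Path x x') {D : FEt X'} (v : Fib z D) :
    (ap (φ.push g h h') v).pt = (ap φ (v.up g h)).pt ≫ pullback.fst D.π g := rfl

theorem Fib.up_down (g : X ⟶ X') {z : Spec (.of Ω) ⟶ X'} (h : x ≫ g = z) {D : FEt X'}
    (y : Fib x (D.pull g)) : (y.down g h).up g h = y :=
  Fib.ext (pullback.hom_ext (pullback.lift_fst _ _ _)
    ((pullback.lift_snd _ _ _).trans y.comm.symm))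

theorem Path.push_trans (g : X ⟶ X') {z : Spec (.of Ω) ⟶ X'}
    {z' : Spec (.of Ω') ⟶ X'} {z'' : Spec (.of Ω'') ⟶ X'} (h : x ≫ g = z) (h' : x' ≫ g = z')
    (h'' : x'' ≫ g = z'') (φ : Path x x') (ψ : Path x' x'') :
    Path.push g h h'' (φ ≪≫ ψ) = φ.push g h h' ≪≫ ψ.push g h' h'' := by
  refine path_ext fun C v => ?_
  rw [ap_trans, ap_push', ap_push', ap_trans,
    show ap (φ.push g h h') v = (ap φ (v.up g h)).down g h' from rfl, Fib.up_down]

theorem push_refl (g : X ⟶ X') {z : Spec (.of Ω) ⟶ X'} (h : x ≫ g = z) :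
    Path.push g h h (Iso.refl (fib x)) = Iso.refl _ :=
  path_ext fun _ v => v.up_fst g h

theorem push_symm (g : X ⟶ X') {z : Spec (.of Ω) ⟶ X'} {z' : Spec (.of Ω') ⟶ X'} (h : x ≫ g = z)
    (h' : x' ≫ g = z') (φ : Path x x') :
    Path.push g h' h φ.symm = (φ.push g h h').symm := by
  have h1 := Path.push_trans g h h' h φ φ.symm
  rw [Iso.self_symm_id, push_refl] at h1
  refine path_ext fun C v => congrArg Fib.pt (ap_inj (φ.push g h h') ?_)
  rw [ap_ap_symm]
  have h2 := Path.push_trans g h' h h' φ.symm φ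
  rw [Iso.symm_self_id, push_refl] at h2
  rw [← ap_trans, ← h2, ap_refl]

theorem push_push {X'' : Scheme.{u}} (g : X ⟶ X') (g' : X' ⟶ X'') {z : Spec (.of Ω) ⟶ X'}
    {z' : Spec (.of Ω') ⟶ X'} {t : Spec (.of Ω) ⟶ X''} {t' : Spec (.of Ω') ⟶ X''}
    (h : x ≫ g = z) (h' : x' ≫ g = z') (k : z ≫ g' = t) (k' : z' ≫ g' = t') (φ : Path x x')
    {g'' : X ⟶ X''} (hg : g ≫ g' = g'') (l : x ≫ g'' = t) (l' : x' ≫ g'' = t') :
    (φ.push g h h').push g' k k' = φ.push g'' l l' := by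
  refine path_ext fun C v => ?_
  rw [ap_push', ap_push', Category.assoc]
  refine (ap_push g'' l l' φ (C := (C.pull g').pull g) _ ?_ _ v ?_).symm
  · rw [Category.assoc, pullback.condition, pullback.condition_assoc, hg]
  · rw [← Category.assoc, Fib.up_fst, Fib.up_fst]

theorem map_apply (g : X ⟶ X') {z : Spec (.of Ω) ⟶ X'} (h : x ≫ g = z) (γ : Pi1 x) :
    Pi1.map g h γ = Path.push g h h γ := rfl

/-- the induced map as a homomorphism -/
noncomputable def Pi1.mapH (g : X ⟶ X') {z : Spec (.of Ω) ⟶ X'} (h : x ≫ g = z) :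
    Pi1 x →* Pi1 z :=
  MonoidHom.mk' (Pi1.map g h) fun γ δ => Path.push_trans g h h h δ γ

theorem map_conjAut (g : X ⟶ X') {z : Spec (.of Ω) ⟶ X'} {z' : Spec (.of Ω') ⟶ X'}
    (h : x ≫ g = z) (h' : x' ≫ g = z') (φ : Path x x') (γ : Pi1 x) :
    Pi1.map g h' (φ.conjAut γ) = (φ.push g h h').conjAut (Pi1.map g h γ) := by
  rw [Iso.conjAut_apply, Iso.conjAut_apply, map_apply, map_apply, ← push_symm,
    ← Path.push_trans, ← Path.push_trans]

theorem ap_twist (σ : Ω ≃+* Ω) (h : Spec.map (CommRingCat.ofHom (σ : Ω →+* Ω)) ≫ x = x)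
    {C : FEt X} (y : Fib x C) :
    (ap (twist σ h) y).pt = Spec.map (CommRingCat.ofHom (σ : Ω →+* Ω)) ≫ y.pt := rfl

theorem map_twist (g : X ⟶ X') {z : Spec (.of Ω) ⟶ X'} (h : x ≫ g = z) (σ : Ω ≃+* Ω)
    (h1 : Spec.map (CommRingCat.ofHom (σ : Ω →+* Ω)) ≫ x = x)
    (h2 : Spec.map (CommRingCat.ofHom (σ : Ω →+* Ω)) ≫ z = z) :
    Pi1.map g h (twist σ h1) = twist σ h2 := by
  refine path_ext fun C v => ?_
  rw [map_apply, ap_push', ap_twist, ap_twist, Category.assoc, Fib.up_fst]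

open PreGaloisCategory in
theorem continuous_pi1 {T : Type*} [TopologicalSpace T] {F : T → Pi1 x}
    (h : ∀ (C : FEt X) (y : Fib x C), IsLocallyConstant fun t => ap (F t) y) : Continuous F := by
  refine continuous_induced_rng.2 (continuous_pi fun C => ?_)
  refine IsLocallyConstant.continuous ?_
  rw [IsLocallyConstant.iff_eventually_eq]
  intro t
  have h1 : ∀ᶠ t' in nhds t, ∀ y : Fib x C, ap (F t') y = ap (F t) y :=
    Filter.eventually_all.2 fun y => (h C y).eventually_eq t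
  filter_upwards [h1] with t' ht'
  exact Iso.ext (FintypeCat.hom_ext _ _ ht')

open PreGaloisCategory in
theorem lc_ap (C : FEt X) (y : Fib x C) : IsLocallyConstant fun γ : Pi1 x => ap γ y := by
  have h1 : Continuous fun γ : Pi1 x => autEmbedding (fib x) γ C :=
    (continuous_apply C).comp continuous_induced_dom
  exact ((IsLocallyConstant.iff_continuous _).2 h1).comp
    fun a : Aut ((fib x).obj C) => (a.hom y : Fib x C)

theorem continuous_map (g : X ⟶ X') {z : Spec (.of Ω) ⟶ X'} (h : x ≫ g = z) :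
    Continuous (Pi1.map g h) :=
  continuous_pi1 fun C v => (lc_ap (C.pull g) (v.up g h)).comp
    fun y => y.down g h

theorem continuous_conjAut (φ : Path x x') : Continuous (φ.conjAut : Pi1 x → Pi1 x') :=
  continuous_pi1 fun C v => by
    simp only [ap_conjAut]
    exact (lc_ap C (ap φ.symm v)).comp (ap φ)

end ap

section good

/-- every point of a cover over `i` extends uniquely to a section -/
def Good {S : Scheme.{u}} {Ω : Type u} [Field Ω] (i : Spec (.of Ω) ⟶ S) : Prop :=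
  ∀ (C : FEt S) (y : Fib i C), ∃! s : S ⟶ C.Y, s ≫ C.π = 𝟙 _ ∧ i ≫ s = y.pt

theorem ring_good {W Ω κ B : Type u} [CommRing W] [IsDomain W] [IsIntegrallyClosed W] [Field Ω]
    [IsAlgClosed Ω] [Algebra W Ω] [IsFractionRing W Ω] [Field κ] [CommRing B] [Algebra W B]
    [Module.Finite W B] [Algebra.Etale W B] (r : W →+* κ) (b : B →+* κ)
    (h : ∀ c, b (algebraMap W B c) = r c) : ∃! s : B →ₐ[W] W, ∀ z, r (s z) = b z := by
  refine existsUnique_of_exists_of_unique ?_ ?_
  · have hQ : (RingHom.ker b).IsPrime := RingHom.ker_isPrime b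
    obtain ⟨P, hPQ, hP, hP0⟩ := (RingHom.ker b).exists_ideal_le_liesOver_of_le
      (p := (⊥ : Ideal W)) (q := (RingHom.ker b).under W) bot_le
    have hinj : Function.Injective (algebraMap W (B ⧸ P)) := by
      rw [injective_iff_map_eq_zero]
      intro c hc
      have h1 : c ∈ P.under W := (Ideal.Quotient.eq_zero_iff_mem (I := P)).1 hc
      rw [← hP0.over] at h1
      exact h1
    have hf : FaithfulSMul W (B ⧸ P) := (faithfulSMul_iff_algebraMap_injective _ _).2 hinj
    let l : (B ⧸ P) →ₐ[W] Ω := IsAlgClosed.lift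
    have hl : Function.Injective l := by
      rw [injective_iff_map_eq_zero]
      intro z hz
      have h1 : RingHom.ker (l : (B ⧸ P) →+* Ω) = ⊥ := by
        refine Ideal.eq_bot_of_comap_eq_bot (R := W) (eq_bot_iff.2 fun c hc => ?_)
        have h2 : l (algebraMap W _ c) = 0 := hc
        rw [l.commutes] at h2
        exact (IsFractionRing.to_map_eq_zero_iff (K := Ω)).1 h2
      have h3 : z ∈ RingHom.ker (l : (B ⧸ P) →+* Ω) := hz
      rwa [h1] at h3
    have hmem : ∀ z : B, ∃ c : W, algebraMap W Ω c = l (Ideal.Quotient.mk P z) := fun z =>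
      IsIntegrallyClosed.isIntegral_iff.1
        ((Algebra.IsIntegral.isIntegral (R := W) (Ideal.Quotient.mk P z)).map l)
    choose s hs using hmem
    have hi := IsFractionRing.injective W Ω
    let s' : B →ₐ[W] W :=
      { toFun := s
        map_one' := hi (by rw [hs, map_one, map_one, map_one])
        map_mul' := fun a c => hi (by rw [map_mul, hs, hs, hs, map_mul, map_mul])
        map_zero' := hi (by rw [hs, map_zero, map_zero, map_zero])
        map_add' := fun a c => hi (by rw [map_add, hs, hs, hs, map_add, map_add])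
        commutes' := fun c => hi (by rw [hs]; exact l.commutes c) }
    refine ⟨s', fun z => ?_⟩
    have h1 : z - algebraMap W B (s z) ∈ P := by
      rw [← Ideal.Quotient.eq_zero_iff_mem]
      apply hl
      rw [map_zero, map_sub, map_sub, ← hs, sub_eq_zero]
      exact (l.commutes (s z)).symm
    have h2 : b (z - algebraMap W B (s z)) = 0 := hPQ h1
    rw [map_sub, h, sub_eq_zero] at h2
    exact h2.symm
  · intro s s' hs hs'
    obtain ⟨t, ht, ht1⟩ := (Algebra.FormallyUnramified.iff_exists_tensorProduct (R := W)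
      (S := B)).1 inferInstance
    let m : B ⊗[W] B →ₐ[W] W := Algebra.TensorProduct.lift s s' fun _ _ => Commute.all _ _
    have hm : ∀ v : B ⊗[W] B, r (m v) = b (Algebra.TensorProduct.lmul' W v) := by
      intro v
      induction v with
      | zero => simp
      | tmul a c => simp [m, hs, hs']
      | add a c ha hc => rw [map_add, map_add, ha, hc, map_add, map_add]
    have h0 : m t ≠ 0 := by
      intro h0
      have h1 := hm t
      rw [h0, ht1, map_zero, map_one] at h1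
      exact zero_ne_one h1
    ext z
    have h2 := congrArg m (ht z)
    rw [map_mul, map_zero, mul_eq_zero] at h2
    have h3 := h2.resolve_right h0
    simp only [m, map_sub, Algebra.TensorProduct.lift_tmul, map_one, one_mul, mul_one] at h3
    exact (sub_eq_zero.1 h3).symm

theorem good_spec {W : Type u} (Ω : Type u) {κ : Type u} [CommRing W] [IsDomain W]
    [IsIntegrallyClosed W] [Field Ω] [IsAlgClosed Ω] [Algebra W Ω] [IsFractionRing W Ω] [Field κ]
    (r : W →+* κ) : Good (Spec.map (CommRingCat.ofHom r)) := by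
  intro C y
  have haff : IsAffine C.Y := isAffine_of_isAffineHom C.π
  obtain ⟨φ, hφ⟩ := Spec.map_surjective (C.Y.isoSpec.inv ≫ C.π)
  obtain ⟨b, hb⟩ := Spec.map_surjective (y.pt ≫ C.Y.isoSpec.hom)
  have hfin : φ.hom.Finite := (IsFinite.SpecMap_iff φ).1 (by rw [hφ]; infer_instance)
  have het : φ.hom.Etale :=
    (HasRingHomProperty.Spec_iff (P := @Etale)).1 (by rw [hφ]; infer_instance)
  have hr : φ ≫ b = CommRingCat.ofHom r := by
    apply Spec.map_injective
    rw [Spec.map_comp, hb, hφ, Category.assoc, Iso.hom_inv_id_assoc, y.comm]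
  letI := φ.hom.toAlgebra
  have : Module.Finite W Γ(C.Y, ⊤) := hfin
  have : Algebra.Etale W Γ(C.Y, ⊤) := het
  obtain ⟨s, hs, huniq⟩ := ring_good (Ω := Ω) r b.hom
    fun c => congrArg (fun m : CommRingCat.of W ⟶ CommRingCat.of κ => m.hom c) hr
  refine ⟨Spec.map (CommRingCat.ofHom (s : Γ(C.Y, ⊤) →+* W)) ≫ C.Y.isoSpec.inv, ⟨?_, ?_⟩, ?_⟩
  · rw [Category.assoc, ← hφ, ← Spec.map_comp, ← Spec.map_id]
    congr 1
    ext c
    exact s.commutes c
  · rw [← Spec.map_comp_assoc, Iso.comp_inv_eq, ← hb]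
    congr 1
    ext z
    exact hs z
  · rintro t ⟨h1, h2⟩
    obtain ⟨τ, hτ⟩ := Spec.map_surjective (t ≫ C.Y.isoSpec.hom)
    have h3 : φ ≫ τ = 𝟙 _ := by
      apply Spec.map_injective
      rw [Spec.map_comp, hτ, hφ, Category.assoc, Iso.hom_inv_id_assoc, h1, Spec.map_id]
    have h4 : τ ≫ CommRingCat.ofHom r = b := by
      apply Spec.map_injective
      rw [Spec.map_comp, hτ, hb, reassoc_of% h2]
    let τ' : Γ(C.Y, ⊤) →ₐ[W] W :=
      { τ.hom with
        commutes' := fun c =>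
          congrArg (fun m : CommRingCat.of W ⟶ CommRingCat.of W => m.hom c) h3 }
    have h5 := huniq τ' fun z => congrArg (fun m : Γ(C.Y, ⊤) ⟶ CommRingCat.of κ => m.hom z) h4
    rw [← h5, Iso.eq_comp_inv, ← hτ]
    rfl

variable {S X X' : Scheme.{u}} {Ω Ω' : Type u} [Field Ω] [Field Ω'] {i : Spec (.of Ω) ⟶ S}
  {j : Spec (.of Ω') ⟶ S}

theorem Good.lift (hi : Good i) (w : S ⟶ X) {x : Spec (.of Ω) ⟶ X} (hx : i ≫ w = x) {C : FEt X}
    (y : Fib x C) : ∃! s : S ⟶ C.Y, s ≫ C.π = w ∧ i ≫ s = y.pt := by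
  obtain ⟨s, ⟨h1, h2⟩, huniq⟩ := hi (C.pull w) (y.up w hx)
  refine ⟨s ≫ pullback.fst C.π w, ⟨?_, ?_⟩, ?_⟩
  · rw [Category.assoc, pullback.condition, reassoc_of% h1]
  · rw [reassoc_of% h2, Fib.up_fst]
  · rintro t ⟨h3, h4⟩
    have h5 := huniq (pullback.lift t (𝟙 _) (h3.trans (Category.id_comp _).symm))
      ⟨pullback.lift_snd _ _ _, pullback.hom_ext
        (by rw [Category.assoc, pullback.lift_fst, Fib.up_fst, h4])
        (by rw [Category.assoc, pullback.lift_snd, Category.comp_id]; exact (y.up w hx).comm.symm)⟩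
    rw [← h5, pullback.lift_fst]

/-- `φ` is the path through `w : S ⟶ X` from `i` to `j` -/
def IsLink (i : Spec (.of Ω) ⟶ S) (j : Spec (.of Ω') ⟶ S) (w : S ⟶ X) {x : Spec (.of Ω) ⟶ X}
    {x' : Spec (.of Ω') ⟶ X} (φ : Path x x') : Prop :=
  ∀ (C : FEt X) (s : S ⟶ C.Y) (y : Fib x C), s ≫ C.π = w → i ≫ s = y.pt → (ap φ y).pt = j ≫ s

theorem exists_link (hi : Good i) (hj : Good j) (w : S ⟶ X) {x : Spec (.of Ω) ⟶ X}
    {x' : Spec (.of Ω') ⟶ X} (hx : i ≫ w = x) (hx' : j ≫ w = x') :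
    ∃ φ : Path x x', IsLink i j w φ := by
  have h1 := fun (C : FEt X) (y : Fib x C) => (hi.lift w hx y).exists
  have h2 := fun (C : FEt X) (y : Fib x' C) => (hj.lift w hx' y).exists
  choose a ha ha' using h1
  choose b hb hb' using h2
  have ka : ∀ (C : FEt X) (y : Fib x C) (s : S ⟶ C.Y), s ≫ C.π = w → i ≫ s = y.pt → a C y = s :=
    fun C y s h h' => (hi.lift w hx y).unique ⟨ha C y, ha' C y⟩ ⟨h, h'⟩
  have kb : ∀ (C : FEt X) (y : Fib x' C) (s : S ⟶ C.Y), s ≫ C.π = w → j ≫ s = y.pt → b C y = s :=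
    fun C y s h h' => (hj.lift w hx' y).unique ⟨hb C y, hb' C y⟩ ⟨h, h'⟩
  refine ⟨NatIso.ofComponents (fun C => isoOf (A := Fib x C) (B := Fib x' C)
    { toFun := fun y => ⟨j ≫ a C y, by rw [Category.assoc, ha, hx']⟩
      invFun := fun y => ⟨i ≫ b C y, by rw [Category.assoc, hb, hx]⟩
      left_inv := fun y => Fib.ext ((congrArg (i ≫ ·) (kb C _ _ (ha C y) rfl)).trans (ha' C y))
      right_inv := fun y => Fib.ext ((congrArg (j ≫ ·) (ka C _ _ (hb C y) rfl)).trans (hb' C y)) })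
    fun {C D} m => FintypeCat.hom_ext _ _ fun y => Fib.ext ?_, fun C s y h h' => ?_⟩
  · refine (congrArg (j ≫ ·) (ka D _ (a C y ≫ FEt.Hom.map m) ?_ ?_)).trans
      (Category.assoc _ _ _).symm
    · rw [Category.assoc, FEt.Hom.comm m, ha]
    · rw [← Category.assoc, ha']
      rfl
  · exact congrArg (j ≫ ·) (ka C y s h h')

theorem IsLink.unique (hi : Good i) {w : S ⟶ X} {x : Spec (.of Ω) ⟶ X} {x' : Spec (.of Ω') ⟶ X}
    (hx : i ≫ w = x) {φ ψ : Path x x'} (h : IsLink i j w φ) (h' : IsLink i j w ψ) : φ = ψ := by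
  refine path_ext fun C y => ?_
  obtain ⟨s, h1, h2⟩ := (hi.lift w hx y).exists
  rw [h C s y h1 h2, h' C s y h1 h2]

theorem IsLink.push {w : S ⟶ X} {x : Spec (.of Ω) ⟶ X} {x' : Spec (.of Ω') ⟶ X}
    (hx : i ≫ w = x) {φ : Path x x'} (h : IsLink i j w φ) (g : X ⟶ X') {z : Spec (.of Ω) ⟶ X'}
    {z' : Spec (.of Ω') ⟶ X'} (k : x ≫ g = z) (k' : x' ≫ g = z') {w' : S ⟶ X'}
    (hw : w ≫ g = w') : IsLink i j w' (φ.push g k k') := by
  intro C s y h1 h2
  rw [ap_push', h (C.pull g) (pullback.lift s w (h1.trans hw.symm)) _ (pullback.lift_snd _ _ _),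
    Category.assoc, pullback.lift_fst]
  refine pullback.hom_ext ?_ ?_
  · rw [Category.assoc, pullback.lift_fst, Fib.up_fst, h2]
  · rw [Category.assoc, pullback.lift_snd, hx]
    exact (y.up g k).comm.symm

/-- a link may be computed on a scheme through which `w` factors -/
theorem IsLink.of_comp {S' : Scheme.{u}} (t : S' ⟶ S) {i' : Spec (.of Ω) ⟶ S'}
    {j' : Spec (.of Ω') ⟶ S'} (h1 : i' ≫ t = i) (h2 : j' ≫ t = j) {w : S ⟶ X}
    {x : Spec (.of Ω) ⟶ X} {x' : Spec (.of Ω') ⟶ X} {φ : Path x x'}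
    (h : IsLink i' j' (t ≫ w) φ) : IsLink i j w φ := by
  intro C s y k1 k2
  rw [h C (t ≫ s) y (by rw [Category.assoc, k1]) (by rw [reassoc_of% h1, k2]), reassoc_of% h2]

end good

end Vale.Agent.P025Z
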