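import Vale.Agent.P025Z.Curve
import Vale.Agent.P025.H641.Every

/-! # Points of the curve and places of the function field -/

set_option backward.isDefEq.respectTransparency false
set_option linter.style.haveILetI false

open CategoryTheory CategoryTheory.Limits AlgebraicGeometry IsLocalRing P025H641

namespace Vale.Agent.P025Z

universe u

/-- `Spec` of a ring homomorphism -/
noncomputable abbrev sp {A B : Type u} [CommRing A] [CommRing B] (φ : A →+* B) :
    Spec (.of B) ⟶ Spec (.of A) := Spec.map (CommRingCat.ofHom φ)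

theorem sp_comp {A B C : Type u} [CommRing A] [CommRing B] [CommRing C] (φ : A →+* B)
    (ψ : B →+* C) : sp ψ ≫ sp φ = sp (ψ.comp φ) :=
  (Spec.map_comp _ _).symm

theorem sp_comp_assoc {A B C : Type u} [CommRing A] [CommRing B] [CommRing C] (φ : A →+* B)
    (ψ : B →+* C) {Z : Scheme.{u}} (h : Spec (.of A) ⟶ Z) :
    sp ψ ≫ sp φ ≫ h = sp (ψ.comp φ) ≫ h := by
  rw [← Category.assoc, sp_comp]

theorem sp_inj {A B : Type u} [CommRing A] [CommRing B] {φ ψ : A →+* B} (h : sp φ = sp ψ) :
    φ = ψ := congrArg CommRingCat.Hom.hom (Spec.map_injective h)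

theorem sp_surj {A B : Type u} [CommRing A] [CommRing B] (m : Spec (.of B) ⟶ Spec (.of A)) :
    ∃ φ : A →+* B, sp φ = m := ⟨(Spec.preimage m).hom, Spec.map_preimage m⟩

theorem sp_id {A : Type u} [CommRing A] : sp (RingHom.id A) = 𝟙 _ := by
  rw [sp, CommRingCat.ofHom_id, Spec.map_id]

variable {k : Type u} [Field k] {X : Scheme.{u}} (f : X ⟶ Spec (.of k)) [IsIntegral X]

theorem exists_stalk_const (x : X) : ∃ φ : k →+* X.presheaf.stalk x,
    X.fromSpecStalk x ≫ f = sp φ ∧ (toK f x).comp φ = algebraMap k (KX f) := by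
  obtain ⟨φ, hφ⟩ := sp_surj (A := k) (B := X.presheaf.stalk x) (X.fromSpecStalk x ≫ f)
  refine ⟨φ, hφ.symm, sp_inj ?_⟩
  rw [← sp_comp, hφ, ← Category.assoc, toK_spec, eta0_comp]

theorem centre_unique [IsSeparated f] (V : ValuationSubring (KX f)) {w w' : Spec (.of V) ⟶ X}
    (h : sp (algebraMap V (KX f)) ≫ w = eta0 f) (h' : sp (algebraMap V (KX f)) ≫ w' = eta0 f) :
    w = w' := by
  have h1 : w' ≫ f = w ≫ f := by
    obtain ⟨φ, hφ⟩ := sp_surj (w ≫ f)
    obtain ⟨ψ, hψ⟩ := sp_surj (w' ≫ f)
    have h2 : (algebraMap V (KX f)).comp φ = (algebraMap V (KX f)).comp ψ := by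
      apply sp_inj
      rw [← sp_comp, ← sp_comp, hφ, hψ, reassoc_of% h, reassoc_of% h']
    rw [← hφ, ← hψ]
    congr 2
    ext c
    exact (congrArg (fun m : k →+* KX f => m c) h2).symm
  have h3 := IsSeparated.valuativeCriterion f
    { R := V, K := KX f, i₁ := eta0 f, i₂ := w ≫ f, commSq := ⟨by rw [← h, Category.assoc]⟩ }
  exact congrArg CommSq.LiftStruct.l (h3.elim ⟨w, h, rfl⟩ ⟨w', h', h1⟩)

theorem exists_centre [IsProper f] (V : ValuationSubring (KX f))
    (hk : ∀ c, algebraMap k (KX f) c ∈ V) :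
    ∃ w : Spec (.of V) ⟶ X, sp (algebraMap V (KX f)) ≫ w = eta0 f := by
  have h1 : ValuativeCriterion.Existence f := by
    have h2 : UniversallyClosed f := inferInstance
    rw [UniversallyClosed.eq_valuativeCriterion] at h2
    exact h2.1
  obtain ⟨l, hl, -⟩ := (h1
    { R := V, K := KX f, i₁ := eta0 f, i₂ := sp ((algebraMap k (KX f)).codRestrict V.toSubring hk)
      commSq := ⟨by rw [eta0_comp, sp_comp]; rfl⟩ }).exists_lift
  exact ⟨l, hl⟩

variable [SmoothOfRelativeDimension 1 f]

theorem const_mem_vs (x : X) (c : k) : algebraMap k (KX f) c ∈ vs f x := by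
  obtain ⟨φ, -, h⟩ := exists_stalk_const f x
  exact ⟨φ c, congrArg (fun m : k →+* KX f => m c) h⟩

theorem vs_lt_one (x : X) (a : X.presheaf.stalk x) :
    (vs f x).valuation (toK f x a) < 1 ↔ ¬ IsUnit a := by
  have h1 := (vs f x).valuation_lt_one_iff ⟨toK f x a, a, rfl⟩
  rw [mem_maximalIdeal, mem_nonunits_iff] at h1
  refine h1.symm.trans (not_congr ⟨fun h => ?_, fun h => ?_⟩)
  · obtain ⟨⟨_, b, rfl⟩, hb⟩ := h.exists_right_inv
    refine IsUnit.of_mul_eq_one b (toK_inj f x ?_)
    rw [map_mul, map_one]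
    exact congrArg Subtype.val hb
  · exact h.map ((toK f x).codRestrict (vs f x).toSubring fun a => ⟨a, rfl⟩)

theorem vs_centre (V : ValuationSubring (KX f)) {w : Spec (.of V) ⟶ X}
    (h : sp (algebraMap V (KX f)) ≫ w = eta0 f) : vs f (w (closedPoint V)) = V := by
  let ψ : X.presheaf.stalk (w (closedPoint V)) →+* V := (Scheme.stalkClosedPointTo w).hom
  have hψ : IsLocalHom ψ := Scheme.isLocalHom_stalkClosedPointTo' w
  have h1 : sp ψ ≫ X.fromSpecStalk _ = w := Scheme.Spec_stalkClosedPointTo_fromSpecStalk w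
  have h2 : (algebraMap V (KX f)).comp ψ = toK f _ := by
    apply sp_inj
    rw [← cancel_mono (X.fromSpecStalk _), ← sp_comp, Category.assoc, h1, h, toK_spec]
  have h3 : ∀ a, (ψ a : KX f) = toK f _ a := fun a => congrArg (fun m : _ →+* KX f => m a) h2
  ext z
  constructor
  · rintro ⟨a, rfl⟩
    rw [← h3]
    exact (ψ a).2
  · intro hz
    by_cases hz0 : z = 0
    · rw [hz0]; exact zero_mem _
    rcases (vs f (w (closedPoint V))).mem_or_inv_mem z with h4 | ⟨a, ha⟩
    · exact h4
    · have h5 : IsUnit (ψ a) := IsUnit.of_mul_eq_one ⟨z, hz⟩ (Subtype.ext (by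
        change (ψ a : KX f) * z = 1
        rw [h3, ha, inv_mul_cancel₀ hz0]))
      obtain ⟨b, hb⟩ := (isUnit_of_map_unit ψ a h5).exists_right_inv
      refine ⟨b, ?_⟩
      have h6 := congrArg (toK f _) hb
      rw [map_mul, map_one, ha] at h6
      exact (inv_mul_eq_one₀ hz0).1 h6 |>.symm

theorem vs_inj [IsSeparated f] {x x' : X} (h : vs f x = vs f x') : x = x' := by
  have key : ∀ (y : X) (V : ValuationSubring (KX f)), vs f y = V →
      ∃ w : Spec (.of V) ⟶ X, sp (algebraMap V (KX f)) ≫ w = eta0 f ∧ w (closedPoint V) = y := by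
    rintro y _ rfl
    let c : X.presheaf.stalk y →+* vs f y :=
      (toK f y).codRestrict (vs f y).toSubring fun a => ⟨a, rfl⟩
    have hc : IsLocalHom c := ⟨fun a ha => by
      by_contra h1
      have h2 := ((vs f y).valuation_lt_one_iff (c a)).2 ((vs_lt_one f y a).2 h1)
      exact h2 ha⟩
    refine ⟨sp c ≫ X.fromSpecStalk y, ?_, ?_⟩
    · rw [sp_comp_assoc]
      exact toK_spec f y
    · rw [Scheme.Hom.comp_apply]
      have h3 : sp c (closedPoint (vs f y)) = closedPoint (X.presheaf.stalk y) :=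
        comap_closedPoint c
      rw [h3]
      exact Scheme.fromSpecStalk_closedPoint
  obtain ⟨w, hw, hx⟩ := key x _ h
  obtain ⟨w', hw', hx'⟩ := key x' _ rfl
  rw [centre_unique f _ hw hw'] at hx
  exact hx.symm.trans hx'

theorem funField : IsFunctionField k (KX f) := exists_trans f

variable [CharZero k]

/-- the image of a rational point -/
noncomputable def RatPt.pt {f : X ⟶ Spec (.of k)} (a : RatPt f) : X := a.1 (closedPoint k)

omit [CharZero k] [SmoothOfRelativeDimension 1 f] in
theorem RatPt.exists_res (a : RatPt f) : ∃ (φ : k →+* X.presheaf.stalk a.pt)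
    (ρ : X.presheaf.stalk a.pt →+* k), (toK f a.pt).comp φ = algebraMap k (KX f) ∧
      (∀ c, ρ (φ c) = c) ∧ sp ρ ≫ X.fromSpecStalk a.pt = a.1 ∧ ∀ z, ρ z = 0 ↔ ¬ IsUnit z := by
  obtain ⟨φ, h1, h2⟩ := exists_stalk_const f a.pt
  let ρ : X.presheaf.stalk a.pt →+* k := (Scheme.stalkClosedPointTo a.1).hom
  have hρ : IsLocalHom ρ := Scheme.isLocalHom_stalkClosedPointTo' a.1
  have h3 : sp ρ ≫ X.fromSpecStalk a.pt = a.1 := Scheme.Spec_stalkClosedPointTo_fromSpecStalk a.1
  have h4 : ρ.comp φ = RingHom.id k := by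
    apply sp_inj
    rw [← sp_comp, ← h1, reassoc_of% h3, a.2, sp_id]
  refine ⟨φ, ρ, h2, fun c => congrArg (fun m : k →+* k => m c) h4, h3, fun z => ⟨fun h h' => ?_,
    fun h => ?_⟩⟩
  · exact (h'.map ρ).ne_zero h
  · by_contra h5
    exact h (isUnit_of_map_unit ρ z (Ne.isUnit h5))

theorem RatPt.isRat (a : RatPt f) : IsRatPlace k (KX f) (vs f a.pt) := by
  obtain ⟨φ, ρ, h1, h2, -, h3⟩ := a.exists_res f
  have h4 : ∀ z ∈ vs f a.pt, ∃ c : k, (vs f a.pt).valuation (z - algebraMap k (KX f) c) < 1 := by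
    rintro _ ⟨b, rfl⟩
    refine ⟨ρ b, ?_⟩
    rw [← h1, RingHom.comp_apply, ← map_sub, vs_lt_one, ← h3, map_sub, h2, sub_self]
  refine ⟨⟨const_mem_vs f _, (funField f).dvr _ (const_mem_vs f _) fun htop => ?_⟩, h4⟩
  obtain ⟨t, ht, -⟩ := exists_trans f
  obtain ⟨c, hc⟩ := h4 t (by rw [htop]; trivial)
  have h5 : t - algebraMap k (KX f) c ≠ 0 := fun h =>
    ht (sub_eq_zero.1 h ▸ isAlgebraic_algebraMap c)
  have h6 : (vs f a.pt).valuation (t - algebraMap k (KX f) c)⁻¹ ≤ 1 :=
    ((vs f a.pt).valuation_le_one_iff _).2 (by rw [htop]; trivial)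
  rw [map_inv₀, inv_le_one₀ (zero_lt_iff.2 ((map_ne_zero _).2 h5))] at h6
  exact absurd hc (not_lt.2 h6)

theorem place_bijective [IsProper f] : Function.Bijective
    (fun a : RatPt f => (⟨vs f a.pt, a.isRat f⟩ : {V // IsRatPlace k (KX f) V})) := by
  constructor
  · intro a b h
    have h1 : a.pt = b.pt := vs_inj f (congrArg Subtype.val h)
    refine RatPt.ext (sec_ext f a.2 b.2 ?_)
    have h2 : (default : Spec (.of k)) = closedPoint k := Subsingleton.elim _ _
    rw [h2]
    exact h1
  · rintro ⟨V, hV⟩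
    obtain ⟨w, hw⟩ := exists_centre f V hV.const_mem
    let c : k →+* V := (algebraMap k (KX f)).codRestrict V.toSubring hV.const_mem
    have hc : Function.Bijective ((residue V).comp c) := by
      refine ⟨RingHom.injective _, fun z => ?_⟩
      obtain ⟨y, rfl⟩ := residue_surjective z
      obtain ⟨d, hd⟩ := hV.residue y y.2
      refine ⟨d, ?_⟩
      rw [RingHom.comp_apply, eq_comm, ← sub_eq_zero, ← map_sub, residue_eq_zero_iff,
        ValuationSubring.valuation_lt_one_iff]
      exact hd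
    let e := RingEquiv.ofBijective _ hc
    let ρ : V →+* k := e.symm.toRingHom.comp (residue V)
    have hρ : IsLocalHom ρ := ⟨fun a ha => by
      by_contra h1
      have h2 : residue V a = 0 := (residue_eq_zero_iff a).2 h1
      refine ha.ne_zero ?_
      change e.symm (residue V a) = 0
      rw [h2, map_zero]⟩
    have h1 : w ≫ f = sp c := by
      obtain ⟨φ, hφ⟩ := sp_surj (w ≫ f)
      have h2 : (algebraMap V (KX f)).comp φ = algebraMap k (KX f) := by
        apply sp_inj
        rw [← sp_comp, hφ, reassoc_of% hw, eta0_comp]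
      rw [← hφ]
      congr 2
      ext d
      exact congrArg (fun m : k →+* KX f => m d) h2
    have h2 : ρ.comp c = RingHom.id k := RingHom.ext fun d => e.symm_apply_apply d
    refine ⟨⟨sp ρ ≫ w, by rw [Category.assoc, h1, sp_comp, h2, sp_id]⟩, Subtype.ext ?_⟩
    have h3 : sp ρ (closedPoint k) = closedPoint V := comap_closedPoint ρ
    change vs f ((sp ρ ≫ w) (closedPoint k)) = V
    rw [Scheme.Hom.comp_apply, h3, vs_centre f V hw]

omit [CharZero k] [SmoothOfRelativeDimension 1 f] in
theorem exists_global {z : KX f} (h : ∀ x : X, ∃ a, toK f x a = z) :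
    ∃ s : Γ(X, ⊤), X.presheaf.germ ⊤ (genericPoint X) trivial s = z := by
  have h1 : ∀ x : X, ∃ (U : X.Opens) (hx : x ∈ U) (s : Γ(X, U)),
      X.presheaf.germ U (genericPoint X) (gen_mem hx) s = z := by
    intro x
    obtain ⟨a, ha⟩ := h x
    obtain ⟨U, hx, s, rfl⟩ := X.presheaf.exists_germ_eq a
    have : Nonempty U := ⟨⟨x, hx⟩⟩
    exact ⟨U, hx, s, (Scheme.algebraMap_germ_eq_germToFunctionField X hx s).symm.trans ha⟩
  choose U hx s hs using h1
  obtain ⟨t, ht, -⟩ := X.sheaf.existsUnique_gluing' U ⊤ (fun _ => homOfLE le_top)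
    (fun x _ => TopologicalSpace.Opens.mem_iSup.2 ⟨x, hx x⟩) s (fun x y => by
      apply germ_injective_of_isIntegral X (U := U x ⊓ U y) (genericPoint X)
        ⟨gen_mem (hx x), gen_mem (hx y)⟩
      exact ((X.presheaf.germ_res_apply _ _ _ _).trans (hs x)).trans
        ((X.presheaf.germ_res_apply _ _ _ _).trans (hs y)).symm)
  refine ⟨t, ?_⟩
  rw [← hs (genericPoint X), ← ht]
  exact (X.presheaf.germ_res_apply (homOfLE le_top) _ (gen_mem (hx (genericPoint X))) t).symm

omit [SmoothOfRelativeDimension 1 f] [IsIntegral X] in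
theorem etale_sp (l : Type u) [Field l] [Algebra k l] [FiniteDimensional k l] :
    IsFinite (sp (algebraMap k l)) ∧ Etale (sp (algebraMap k l)) := by
  have : Algebra.FormallyEtale k l := Algebra.FormallyEtale.of_isSeparable k l
  have : Algebra.FinitePresentation k l := Algebra.FinitePresentation.of_finiteType.1 inferInstance
  have : Algebra.Etale k l := ⟨inferInstance, inferInstance⟩
  exact ⟨(IsFinite.SpecMap_iff _).2 (RingHom.finite_algebraMap.2 inferInstance),
    (HasRingHomProperty.Spec_iff (P := @Etale)).2 (RingHom.etale_algebraMap.2 inferInstance)⟩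

theorem constants [GeometricallyConnected f] (c : KX f) (hc : IsIntegral k c) :
    ∃ d : k, algebraMap k (KX f) d = c := by
  let l := IntermediateField.adjoin k {c}
  have hl : FiniteDimensional k l := IntermediateField.adjoin.finiteDimensional hc
  let γ : Γ(X, ⊤) →+* KX f := (X.presheaf.germ ⊤ (genericPoint X) trivial).hom
  have hγ : Function.Injective γ := germ_injective_of_isIntegral X _ _
  have hmem : ∀ z : l, (z : KX f) ∈ γ.range := by
    intro z
    refine exists_global f fun x => ?_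
    letI : Algebra k (vs f x) :=
      ((algebraMap k (KX f)).codRestrict (vs f x).toSubring (const_mem_vs f x)).toAlgebra
    have : IsScalarTower k (vs f x) (KX f) := IsScalarTower.of_algebraMap_eq fun _ => rfl
    have h1 : IsIntegral k (z : KX f) := (Algebra.IsIntegral.isIntegral (R := k) z).map l.val
    obtain ⟨y, hy⟩ := (IsIntegrallyClosed.isIntegral_iff (R := vs f x)).1 h1.tower_top
    rw [← hy]
    exact y.2
  let e := RingEquiv.ofBijective γ.rangeRestrict
    ⟨fun a b h => hγ (congrArg Subtype.val h), γ.rangeRestrict_surjective⟩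
  let j : l →+* Γ(X, ⊤) := e.symm.toRingHom.comp ((algebraMap l (KX f)).codRestrict γ.range hmem)
  have hj : γ.comp j = algebraMap l (KX f) := RingHom.ext fun z =>
    congrArg Subtype.val (e.apply_symm_apply ⟨z, hmem z⟩)
  have h1 : eta0 f ≫ X.toSpecΓ = sp γ := Scheme.fromSpecStalk_toSpecΓ X _
  let φ : X ⟶ Spec (.of l) := X.toSpecΓ ≫ sp j
  have hφ : eta0 f ≫ φ = sp (algebraMap l (KX f)) := by rw [reassoc_of% h1, sp_comp, hj]
  let q := sp (algebraMap k l)
  have hφq : φ ≫ q = f := by
    let ψ : k →+* Γ(X, ⊤) := ((Scheme.ΓSpecIso (.of k)).inv ≫ f.appTop).hom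
    have h2 : X.toSpecΓ ≫ sp ψ = f := by
      change X.toSpecΓ ≫ Spec.map ((Scheme.ΓSpecIso (.of k)).inv ≫ f.appTop) = f
      rw [Spec.map_comp, ← Scheme.toSpecΓ_naturality_assoc, toSpecΓ_SpecMap_ΓSpecIso_inv,
        Category.comp_id]
    have h3 : γ.comp ψ = algebraMap k (KX f) := by
      apply sp_inj
      rw [← sp_comp, ← h1, Category.assoc, h2, eta0_comp]
    have h4 : j.comp (algebraMap k l) = ψ := by
      ext d
      apply hγ
      exact (congrArg (fun m : l →+* KX f => m (algebraMap k l d)) hj).trans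
        (congrArg (fun m : k →+* KX f => m d) h3).symm
    rw [Category.assoc, sp_comp, h4, h2]
  obtain ⟨hq1, hq2⟩ := etale_sp (k := k) l
  have hconn : ConnectedSpace (pullback f q : Scheme.{u}) :=
    GeometricallyConnected.geometrically_connectedSpace q _ _ (IsPullback.of_hasPullback f q)
  let μ : pullback f q ⟶ pullback q q := pullback.lift (pullback.fst f q ≫ φ) (pullback.snd f q)
    (by rw [Category.assoc, hφq, pullback.condition])
  let Ω := AlgebraicClosure (KX f)
  let η : Spec (.of Ω) ⟶ X := sp (algebraMap (KX f) Ω) ≫ eta0 f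
  have hη : η ≫ φ = sp (algebraMap l Ω) := by
    rw [Category.assoc, hφ, sp_comp, ← IsScalarTower.algebraMap_eq]
  have hP : ∀ τ : l →ₐ[k] Ω, η ≫ f = sp τ.toRingHom ≫ q := fun τ => by
    rw [Category.assoc, eta0_comp, sp_comp, sp_comp, ← IsScalarTower.algebraMap_eq]
    exact congrArg sp τ.comp_algebraMap.symm
  have hclopen : IsClopen (μ ⁻¹' Set.range (pullback.diagonal q)) :=
    ⟨(pullback.diagonal q).isClosedEmbedding.isClosed_range.preimage μ.continuous,
      (pullback.diagonal q).isOpenEmbedding.isOpen_range.preimage μ.continuous⟩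
  let ι : l →ₐ[k] Ω := IsScalarTower.toAlgHom k l Ω
  have h5 : pullback.lift η _ (hP ι) ≫ μ = sp (algebraMap l Ω) ≫ pullback.diagonal q := by
    refine pullback.hom_ext ?_ ?_
    · rw [Category.assoc, pullback.lift_fst, pullback.lift_fst_assoc, hη, Category.assoc,
        pullback.diagonal_fst, Category.comp_id]
    · rw [Category.assoc, pullback.lift_snd, pullback.lift_snd, Category.assoc,
        pullback.diagonal_snd, Category.comp_id]
      rfl
  have huniv := hclopen.eq_univ ⟨pullback.lift η _ (hP ι) default, by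
    rw [Set.mem_preimage, ← Scheme.Hom.comp_apply, h5]
    exact ⟨_, (Scheme.Hom.comp_apply _ _ _).symm⟩⟩
  have key : ∀ τ : l →ₐ[k] Ω, τ = ι := by
    intro τ
    have h6 : Set.range (pullback.lift η _ (hP τ) ≫ μ) ⊆ Set.range (pullback.diagonal q) := by
      rintro _ ⟨y, rfl⟩
      rw [Scheme.Hom.comp_apply]
      exact huniv.ge (Set.mem_univ _)
    have h7 := IsOpenImmersion.lift_fac (pullback.diagonal q) _ h6
    have h8 := congrArg (· ≫ pullback.fst q q) h7
    have h9 := congrArg (· ≫ pullback.snd q q) h7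
    simp only [Category.assoc, pullback.diagonal_fst, pullback.diagonal_snd, Category.comp_id, μ,
      pullback.lift_fst, pullback.lift_snd, pullback.lift_fst_assoc] at h8 h9
    have h10 := sp_inj (h9.symm.trans (h8.trans hη))
    exact AlgHom.ext fun z => congrArg (fun m : l →+* Ω => m z) h10
  have h11 : Module.finrank k l = 1 := by
    rw [← AlgHom.natCard_of_splits k l Ω fun z => IsAlgClosed.splits _, Nat.card_eq_one_iff_unique]
    exact ⟨⟨fun a b => (key a).trans (key b).symm⟩, ⟨ι⟩⟩
  rw [IntermediateField.finrank_eq_one_iff] at h11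
  have h12 : c ∈ l := IntermediateField.mem_adjoin_simple_self k c
  rw [h11] at h12
  exact IntermediateField.mem_bot.1 h12

end Vale.Agent.P025Z
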