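import Vale.Agent.P025Z.Link
import Vale.Agent.P025.R2.H855.Final3

/-! # Transfer of the sections -/

set_option backward.isDefEq.respectTransparency false
set_option linter.style.haveILetI false

open CategoryTheory CategoryTheory.Limits AlgebraicGeometry IsLocalRing P025H641 P025H855

namespace Vale.Agent.P025Z

universe u

theorem continuous_autCongr {F L L' : Type u} [Field F] [Field L] [Field L'] [Algebra F L]
    [Algebra F L'] (j : L ≃ₐ[F] L') : Continuous (AlgEquiv.autCongr j) := by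
  refine continuous_of_continuousAt_one _ (continuousAt_def.2 fun N hN => ?_)
  rw [map_one, krullTopology_mem_nhds_one_iff] at hN
  obtain ⟨E, hE, hN⟩ := hN
  refine (krullTopology_mem_nhds_one_iff _ _ _).2 ⟨E.map j.symm.toAlgHom,
    LinearEquiv.finiteDimensional (IntermediateField.equivMap E _).toLinearEquiv,
    fun g hg => hN fun x => ?_⟩
  exact (congrArg j (hg ⟨j.symm x, x, x.2, rfl⟩)).trans (j.apply_symm_apply x)

variable {k : Type u} [Field k] {X : Scheme.{u}} {f : X ⟶ Spec (.of k)}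

theorem sec_ext1 {K : Type u} [Field K] [Algebra k K] {s s' : P025H641.Section k K}
    (h : ∀ σ, s.hom σ = s'.hom σ) : s = s' := by
  obtain ⟨s, _, _⟩ := s
  obtain ⟨s', _, _⟩ := s'
  obtain rfl : s = s' := MonoidHom.ext h
  rfl

theorem sec_ext2 {x : BasePt f} {s s' : Section x} (h : ∀ σ, s.hom σ = s'.hom σ) : s = s' := by
  obtain ⟨s, _, _, _⟩ := s
  obtain ⟨s', _, _, _⟩ := s'
  obtain rfl : s = s' := funext h
  rfl

theorem incl_mul (x : BasePt f) (δ δ' : Pi1 x.up) : x.incl (δ * δ') = x.incl δ * x.incl δ' :=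
  map_mul (Pi1.mapH _ x.up_fst) δ δ'

theorem incl_one (x : BasePt f) : x.incl 1 = 1 := map_one (Pi1.mapH _ x.up_fst)

theorem incl_inv (x : BasePt f) (δ : Pi1 x.up) : x.incl δ⁻¹ = (x.incl δ)⁻¹ :=
  map_inv (Pi1.mapH _ x.up_fst) δ

theorem conj_equiv (x : BasePt f) : Equivalence (Conj (x := x)) where
  refl := fun s => ⟨1, fun σ => by rw [incl_one, one_mul, inv_one, mul_one]⟩
  symm := by
    rintro s s' ⟨δ, h⟩
    exact ⟨δ⁻¹, fun σ => by rw [h σ, incl_inv]; group⟩
  trans := by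
    rintro s s' s'' ⟨δ, h⟩ ⟨δ', h'⟩
    exact ⟨δ' * δ, fun σ => by rw [h' σ, h σ, incl_mul]; group⟩

/-- conjugation of sections as a setoid -/
def conj (x : BasePt f) : Setoid (Section x) := ⟨Conj, conj_equiv x⟩

theorem sectionAt_iff {x : BasePt f} {a : RatPt f} {s0 : Section x} (h0 : IsSectionAt a s0)
    (hker : ∀ γ : Pi1 x.1, Pi1.map f x.2 γ = 1 → ∃ δ, x.incl δ = γ) (s : Section x) :
    conj x s0 s ↔ IsSectionAt a s := by
  obtain ⟨φ0, h1, h2⟩ := h0
  simp only [Path.conj_eq] at h2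
  have ha : (geo k ≫ a.1) ≫ f = geo k := by rw [Category.assoc, a.2, Category.comp_id]
  have key : ∀ (φ : Path (geo k ≫ a.1) x.1) (γ : Pi1 x.1), φ0 ≪≫ γ = φ → ∀ T,
      φ.conjAut T = γ * φ0.conjAut T * γ⁻¹ := by
    rintro _ γ rfl T
    refine path_ext fun C y => congrArg Fib.pt ?_
    rw [ap_mul, ap_mul, ap_conjAut, ap_conjAut]
    rfl
  constructor
  · rintro ⟨δ, hδ⟩
    refine ⟨φ0 ≪≫ x.incl δ, ?_, fun σ => ?_⟩
    · rw [Path.push_trans f ha x.2 x.2, h1, Iso.refl_trans]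
      exact map_incl x δ
    · rw [hδ, h2, Path.conj_eq, key _ _ rfl]
  · rintro ⟨φ, h3, h4⟩
    simp only [Path.conj_eq] at h4
    obtain ⟨δ, hδ⟩ := hker (φ0.symm ≪≫ φ) (by
      rw [map_apply, Path.push_trans f x.2 ha x.2, push_symm, h1, h3]
      rfl)
    exact ⟨δ, fun σ => by rw [h4, h2, hδ, key φ _ (Iso.self_symm_id_assoc _ _)]⟩

variable [IsIntegral X]

theorem exists_over (ι : AlgebraicClosure k →ₐ[k] AlgebraicClosure (KX f)) (g : GalK (KX f)) :
    ∃ τ : GalK k, ∀ t, g (ι t) = ι (τ t) := by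
  letI : Algebra (AlgebraicClosure k) (AlgebraicClosure (KX f)) := ι.toRingHom.toAlgebra
  have : IsScalarTower k (AlgebraicClosure k) (AlgebraicClosure (KX f)) :=
    IsScalarTower.of_algebraMap_eq fun c => (ι.commutes c).symm
  exact ⟨(g.restrictScalars k).restrictNormal (AlgebraicClosure k), fun t =>
    ((g.restrictScalars k).restrictNormal_commutes (AlgebraicClosure k) t).symm⟩

theorem exists_const (ι : AlgebraicClosure k →ₐ[k] AlgebraicClosure (KX f)) :
    ∃ j : AlgebraicClosure k ≃ₐ[k] constClosure k (KX f),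
      ∀ t, (j t : AlgebraicClosure (KX f)) = ι t := by
  let j : AlgebraicClosure k →ₐ[k] constClosure k (KX f) :=
    ι.codRestrict (constClosure k (KX f)).toSubalgebra fun t =>
      mem_algebraicClosure_iff.2 ((Algebra.IsAlgebraic.isAlgebraic (R := k) t).algHom ι)
  letI : Algebra (AlgebraicClosure k) (constClosure k (KX f)) := j.toRingHom.toAlgebra
  have : IsScalarTower k (AlgebraicClosure k) (constClosure k (KX f)) :=
    IsScalarTower.of_algebraMap_eq fun c => (j.commutes c).symm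
  have : Algebra.IsIntegral (AlgebraicClosure k) (constClosure k (KX f)) :=
    ⟨fun z => (Algebra.IsIntegral.isIntegral (R := k) z).tower_top⟩
  exact ⟨AlgEquiv.ofBijective j IsAlgClosed.algebraMap_bijective_of_isIntegral, fun _ => rfl⟩

variable [SmoothOfRelativeDimension 1 f] [CharZero k] [IsProper f]

theorem transfer (e0 : {V // IsRatPlace k (KX f) V} ≃ Quotient (sectionSetoid k (KX f)))
    (he0 : ∀ V s, e0 V = Quotient.mk (sectionSetoid k (KX f)) s ↔
      ∃ W : ValuationSubring (maxUnr k (KX f)),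
        W.comap (algebraMap (KX f) (maxUnr k (KX f))) = V.1 ∧ IsSectionOf s W) (x : BasePt f) :
    ∃ e : RatPt f ≃ Quotient (conj x), ∀ a s, e a = Quotient.mk (conj x) s ↔ IsSectionAt a s := by
  have := charZero_KX f
  have h : sp (algebraMap (KX f) (AlgebraicClosure (KX f))) ≫ eta0 f = _ := rfl
  obtain ⟨ι, Φ, H⟩ := exists_lk_base h x
  obtain ⟨Θ0, hc0, -, hΘ0⟩ := exists_theta f h
  obtain ⟨j, hj⟩ := exists_const ι
  obtain ⟨Θ, hc, hc', hΘ⟩ : ∃ Θ : GalOf (maxUnr k (KX f)) ≃* Pi1 x.1, Continuous Θ ∧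
      Continuous Θ.symm ∧ ∀ g, Θ (resM f g) = Φ.conjAut (act h g) := by
    have h1 : Continuous (Θ0.trans Φ.conjAut) := (continuous_conjAut Φ).comp hc0
    exact ⟨Θ0.trans Φ.conjAut, h1,
      (Continuous.homeoOfEquivCompactToT2 (f := (Θ0.trans Φ.conjAut).toEquiv) h1).continuous_invFun,
      fun g => congrArg Φ.conjAut (hΘ0 g)⟩
  obtain ⟨J, hJ, hJ', hJj⟩ : ∃ J : GalK k ≃* GalOf (constClosure k (KX f)), Continuous J ∧
      Continuous J.symm ∧ ∀ τ t, AlgEquiv.toEquiv (J τ) (j t) = j (τ t) :=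
    ⟨AlgEquiv.autCongr j, continuous_autCongr j, continuous_autCongr j.symm, fun τ t =>
      congrArg (fun z => j (τ z)) (j.symm_apply_apply t)⟩
  have hιM : ∀ t, ι t ∈ maxUnr k (KX f) := fun t =>
    mem_maxUnr_of_const _ ((Algebra.IsIntegral.isIntegral (R := k) _).map ι)
  have key2 : ∀ g τ, Pi1.map f x.2 (Θ (resM f g)) = gal k τ ↔ ∀ t, g (ι t) = ι (τ t) := by
    intro g τ
    rw [hΘ]
    have h0 : ∀ τ : GalK k, (∀ t, g (ι t) = ι (τ t)) →
        Pi1.map f x.2 (Φ.conjAut (act h g)) = gal k τ :=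
      H.map_twist x.2 g.toRingEquiv (by rw [sp_comp_assoc, rh_comp])
    refine ⟨fun h1 => ?_, h0 τ⟩
    obtain ⟨τ', h2⟩ := exists_over ι g
    rwa [← (gal_homeo k).injective ((h0 τ' h2).symm.trans h1)]
  have key3 : ∀ g τ, (∀ y z, (J τ).Maps y z → y ∈ maxUnr k (KX f) →
      GalOf.Maps (L := maxUnr k (KX f)) (resM f g) y z) ↔ ∀ t, g (ι t) = ι (τ t) := by
    intro g τ
    constructor
    · intro h1 t
      obtain ⟨y, hy, hz⟩ := h1 (ι t) (ι (τ t)) ⟨j t, hj t, by rw [hJj, hj]⟩ (hιM t)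
      rw [← hz, ← hy]
      exact (resM_apply f g y).symm
    · rintro h1 _ _ ⟨y, rfl, rfl⟩ hy
      obtain ⟨t, rfl⟩ := j.surjective y
      refine ⟨⟨_, hy⟩, rfl, (resM_apply f g _).trans ?_⟩
      rw [hJj, hj (τ t), ← h1]
      exact congrArg g (hj t)
  have key4 : ∀ (γ : GalOf (maxUnr k (KX f))) τ, (∀ y z, (J τ).Maps y z → y ∈ maxUnr k (KX f) →
      γ.Maps y z) ↔ Pi1.map f x.2 (Θ γ) = gal k τ := by
    intro γ τ
    obtain ⟨g, rfl⟩ := resM_surj f γ
    exact (key3 g τ).trans (key2 g τ).symm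
  have key5 : ∀ γ : GalOf (maxUnr k (KX f)), Pi1.map f x.2 (Θ γ) = 1 → ∃ δ, x.incl δ = Θ γ := by
    intro γ h1
    obtain ⟨g, rfl⟩ := resM_surj f γ
    rw [← gal_one (K := k), key2] at h1
    rw [hΘ]
    exact H.exists_incl g.toRingEquiv (by rw [sp_comp_assoc, rh_comp]) h1
  have key6 : ∀ γ : GalOf (maxUnr k (KX f)), IsGeomAut γ ↔ Pi1.map f x.2 (Θ γ) = 1 := by
    intro γ
    rw [← gal_one (K := k), ← key4, map_one]
    constructor
    · rintro h1 _ _ ⟨y, rfl, rfl⟩ -
      exact h1 y y.2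
    · intro h1 y hy
      exact h1 y y ⟨⟨y, hy⟩, rfl, rfl⟩
        (mem_maxUnr_of_const _ (mem_algebraicClosure_iff.1 hy).isIntegral)
  let E : P025H641.Section k (KX f) ≃ Section x :=
    { toFun := fun s => ⟨fun τ => Θ (s.hom (J τ)),
        fun σ τ => by rw [map_mul, map_mul, map_mul], hc.comp (s.cont.comp hJ), fun τ => (key4 _ τ).1 (s.lifts (J τ))⟩
      invFun := fun s => ⟨Θ.symm.toMonoidHom.comp
          ((MonoidHom.mk' s.hom s.mul).comp J.symm.toMonoidHom),
        hc'.comp (s.cont.comp hJ'), fun σ => by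
          have h1 := (key4 (Θ.symm (s.hom (J.symm σ))) (J.symm σ)).2 (by
            rw [Θ.apply_symm_apply, s.sec])
          rw [J.apply_symm_apply] at h1
          exact h1⟩
      left_inv := fun s => sec_ext1 fun σ => (Θ.symm_apply_apply _).trans
        (congrArg s.hom (J.apply_symm_apply σ))
      right_inv := fun s => sec_ext2 fun σ => (Θ.apply_symm_apply _).trans
        (congrArg s.hom (J.symm_apply_apply σ)) }
  have hE : ∀ s τ, (E s).hom τ = Θ (s.hom (J τ)) := fun _ _ => rfl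
  have hrel : ∀ s s', sectionSetoid k (KX f) s s' ↔ conj x (E s) (E s') := by
    intro s s'
    constructor
    · rintro ⟨γ, h1, h2⟩
      obtain ⟨δ, hδ⟩ := key5 γ ((key6 γ).1 h1)
      exact ⟨δ, fun τ => by rw [hE, hE, h2, hδ, map_mul, map_mul, map_inv]⟩
    · rintro ⟨δ, hδ⟩
      refine ⟨Θ.symm (x.incl δ), (key6 _).2 (by rw [Θ.apply_symm_apply, map_incl]), fun σ => ?_⟩
      obtain ⟨τ, rfl⟩ := J.surjective σ
      apply Θ.injective
      rw [← hE, hδ, map_mul, map_mul, map_inv, Θ.apply_symm_apply, hE]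
  refine ⟨(Equiv.ofBijective _ (place_bijective f)).trans (e0.trans (Quotient.congr E hrel)),
    fun a s => ?_⟩
  obtain ⟨s0, hs0⟩ := Quotient.exists_rep (e0 ⟨vs f a.pt, a.isRat f⟩)
  obtain ⟨W, hW, hs⟩ := (he0 _ s0).1 hs0.symm
  have hst := (stabilizes_iff s0 W).1 hs.stabilizes
  obtain ⟨Φa, Ha, hΦa⟩ := exists_lk_rat h a ι W hW
  have h0 : IsSectionAt a (E s0) := by
    refine ⟨Φa.symm ≪≫ Φ, Ha.push_eq H _ _, fun τ => ?_⟩
    obtain ⟨g, hg⟩ := resM_surj f (s0.hom (J τ))
    have h1 := (key2 g τ).1 (by rw [hg]; exact (E s0).sec τ)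
    rw [hE, Path.conj_eq, ← hg, hΘ, ← hΦa g τ h1]
    · refine path_ext fun C y => congrArg Fib.pt ?_
      simp only [ap_conjAut, Iso.trans_symm, Iso.symm_symm_eq, ap_trans, ap_symm_ap]
    · intro u hu
      rw [ValuationSubring.mem_nonunits_iff_or] at hu ⊢
      rw [hg]
      rcases hu with rfl | hu
      · exact Or.inl (map_zero (s0.toHom (J τ)))
      · refine Or.inr fun h2 => hu ?_
        have h3 := hst (J τ)⁻¹ _ h2
        have h4 : s0.toHom (J τ)⁻¹ (s0.toHom (J τ) u) = u := by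
          rw [← AlgEquiv.mul_apply, ← map_mul]
          exact congrArg (fun γ : Gal(maxUnr k (KX f)/KX f) => γ u)
            ((congrArg s0.toHom (inv_mul_cancel (J τ))).trans (map_one _))
        rw [map_inv₀] at h3
        exact h4 ▸ h3
  have h1 : ((Equiv.ofBijective _ (place_bijective f)).trans
      (e0.trans (Quotient.congr E hrel))) a = Quotient.mk (conj x) (E s0) :=
    congrArg (Quotient.congr E hrel) hs0.symm
  rw [h1, Quotient.eq]
  refine sectionAt_iff h0 (fun γ hγ => ?_) s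
  obtain ⟨γ, rfl⟩ := Θ.surjective γ
  exact key5 γ hγ

omit [CharZero k] [IsProper f] in
theorem nonempty_basePt : Nonempty (BasePt f) := by
  obtain ⟨U, hx, g, het⟩ := exists_coord f (genericPoint X)
  have := fn_domain f U hx
  have h1 : Algebra.FiniteType k (Fn f U) := by
    letI : Algebra (Polynomial k) (Fn f U) := g.toRingHom.toAlgebra
    have : Algebra.Etale (Polynomial k) (Fn f U) := het
    have : IsScalarTower k (Polynomial k) (Fn f U) :=
      IsScalarTower.of_algebraMap_eq fun c => (g.commutes c).symm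
    exact Algebra.FiniteType.trans (S := Polynomial k) inferInstance inferInstance
  obtain ⟨m, hm⟩ := Ideal.exists_maximal (Fn f U)
  letI := Ideal.Quotient.field m
  have : Module.Finite k (Fn f U ⧸ m) := finite_of_finite_type_of_isJacobsonRing _ _
  let l : (Fn f U ⧸ m) →ₐ[k] AlgebraicClosure k := IsAlgClosed.lift
  let ρ := l.comp (Ideal.Quotient.mkₐ k m)
  refine ⟨⟨sp ρ.toRingHom ≫ U.2.fromSpec, ?_⟩⟩
  rw [Category.assoc, fromSpec_comp, sp_comp]
  exact congrArg sp ρ.comp_algebraMap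

end Vale.Agent.P025Z
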